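import Vale.Agent.P254M.Score

/-!
Affine changes of variables for potentials.
-/

open MeasureTheory Set Filter Topology Finset Matrix
open Vale.Agent.P245 hiding cv
open scoped ContDiff

namespace Vale.Agent.P254M.Gap

variable {n : ℕ} {U : (Fin n → ℝ) → ℝ} {a b : ℝ}

/-- The potential in the coordinates `x = R y + c`, shifted by `κ`. -/
noncomputable def aff (U : (Fin n → ℝ) → ℝ) (R : Matrix (Fin n) (Fin n) ℝ) (c : Fin n → ℝ)
    (κ : ℝ) :
    (Fin n → ℝ) → ℝ :=
  fun y => U (R *ᵥ y + c) + κ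

variable (R : Matrix (Fin n) (Fin n) ℝ) (c : Fin n → ℝ) (κ : ℝ)

lemma contDiff_affineMap : ContDiff ℝ ∞ fun y : Fin n → ℝ => R *ᵥ y + c := by
  refine (contDiff_pi.2 fun i => ?_).add contDiff_const
  simp only [mulVec, dotProduct]
  fun_prop

lemma pd_comp_aff {f : (Fin n → ℝ) → ℝ} (hf : Differentiable ℝ f) (j : Fin n) (y : Fin n → ℝ) :
    pd j (fun z => f (R *ᵥ z + c)) y = ∑ k, R k j * pd k f (R *ᵥ y + c) := by
  have h1 := hasDerivAt_comp_line (f := fun z => f (R *ᵥ z + c))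
    (hf.comp ((contDiff_affineMap R c).differentiable (by simp))) y (Pi.single j 1) 0
  have h2 := hasDerivAt_comp_line hf (R *ᵥ y + c) (R *ᵥ Pi.single j 1) 0
  have e : (fun r : ℝ => f (R *ᵥ y + c + r • R *ᵥ Pi.single j 1)) =
      fun r : ℝ => f (R *ᵥ (y + r • Pi.single j 1) + c) := by
    funext r; rw [mulVec_add, mulVec_smul, add_right_comm]
  rw [e] at h2
  have := h1.unique h2
  simpa [Pi.single_apply, mulVec_single] using this

lemma hs_aff (hU : ContDiff ℝ ∞ U) (y : Fin n → ℝ) :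
    hs (aff U R c κ) y = Rᵀ * hs U (R *ᵥ y + c) * R := by
  ext i j
  have e : pd j (aff U R c κ) = fun z => ∑ k, R k j * pd k U (R *ᵥ z + c) := by
    funext z
    rw [← pd_comp_aff R c (hU.differentiable (by simp))]
    show fderiv ℝ (fun z => U (R *ᵥ z + c) + κ) z _ = _
    rw [fderiv_add_const]
    rfl
  have hd : ∀ k, Differentiable ℝ fun z => pd k U (R *ᵥ z + c) := fun k =>
    ((contDiff_pd hU k).comp (contDiff_affineMap R c)).differentiable (by simp)
  show pd i (pd j (aff U R c κ)) y = _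
  rw [e, pd_sum _ (fun k => (hd k).const_mul _)]
  have e2 : ∀ k, pd i (fun z => R k j * pd k U (R *ᵥ z + c)) y =
      R k j * ∑ l, R l i * pd l (pd k U) (R *ᵥ y + c) := fun k => by
    rw [pd_const_mul (hd k), pd_comp_aff R c ((contDiff_pd hU k).differentiable (by simp))]
  simp only [e2, Matrix.mul_apply, transpose_apply, hs, mul_sum, sum_mul]
  exact sum_congr rfl fun k _ => sum_congr rfl fun l _ => by ring

lemma quad_hs_aff (hU : ContDiff ℝ ∞ U) (y v : Fin n → ℝ) :
    v ⬝ᵥ (hs (aff U R c κ) y *ᵥ v) = (R *ᵥ v) ⬝ᵥ (hs U (R *ᵥ y + c) *ᵥ (R *ᵥ v)) := by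
  rw [hs_aff R c κ hU, ← mulVec_mulVec, ← mulVec_mulVec, dotProduct_mulVec, vecMul_transpose]

lemma sumSq_mulVec_le (M : Matrix (Fin n) (Fin n) ℝ) (v : Fin n → ℝ) :
    sumSq (M *ᵥ v) ≤ (∑ i, ∑ j, M i j ^ 2) * sumSq v := by
  simp only [sumSq, mulVec, dotProduct, sum_mul]
  refine sum_le_sum fun i _ => ?_
  simpa [sumSq, ← mul_sum, sum_mul] using sum_mul_sq_le_sq_mul_sq univ (M i) v

variable {R c κ}

lemma bd_aff (h : Bd U a b) (hR : R.det ≠ 0) :
    ∃ a' b', Bd (aff U R c κ) a' b' := by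
  set K := (∑ i, ∑ j, R⁻¹ i j ^ 2) + 1 with hK
  set L := (∑ i, ∑ j, R i j ^ 2) + 1 with hL
  have hK1 : 1 ≤ K := by
    have : 0 ≤ ∑ i, ∑ j, R⁻¹ i j ^ 2 := sum_nonneg fun i _ => sum_nonneg fun j _ => sq_nonneg _
    linarith
  have hL1 : 1 ≤ L := by
    have : 0 ≤ ∑ i, ∑ j, R i j ^ 2 := sum_nonneg fun i _ => sum_nonneg fun j _ => sq_nonneg _
    linarith
  refine ⟨a / K, b * L, (h.smooth.comp (contDiff_affineMap R c)).add contDiff_const,
    div_pos h.a_pos (by linarith), ?_, fun y v => ?_, fun y v => ?_⟩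
  · calc a / K ≤ a := div_le_self h.a_pos.le hK1
      _ ≤ b := h.a_le
      _ ≤ b * L := le_mul_of_one_le_right h.b_pos.le hL1
  · rw [quad_hs_aff R c κ h.smooth]
    refine le_trans ?_ (h.lower _ _)
    have := sumSq_mulVec_le R⁻¹ (R *ᵥ v)
    rw [mulVec_mulVec, nonsing_inv_mul _ (isUnit_iff_ne_zero.2 hR), one_mulVec] at this
    rw [div_mul_eq_mul_div, div_le_iff₀ (by linarith), mul_assoc]
    refine mul_le_mul_of_nonneg_left ?_ h.a_pos.le
    nlinarith [sumSq_nonneg (R *ᵥ v)]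
  · rw [quad_hs_aff R c κ h.smooth]
    refine (h.upper _ _).trans ?_
    rw [mul_assoc]
    refine mul_le_mul_of_nonneg_left ((sumSq_mulVec_le R v).trans ?_) h.b_pos.le
    exact mul_le_mul_of_nonneg_right (by linarith) (sumSq_nonneg v)

variable (R c κ)

lemma integral_comp_affineMap (hR : R.det ≠ 0) (f : (Fin n → ℝ) → ℝ) :
    ∫ y, f (R *ᵥ y + c) = |R.det|⁻¹ * ∫ x, f x := by
  set e : (Fin n → ℝ) ≃L[ℝ] (Fin n → ℝ) :=
    (Matrix.toLinearEquiv' R 
      (invertibleOfIsUnitDet R (isUnit_iff_ne_zero.2 hR))).toContinuousLinearEquiv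
  have he : MeasurableEmbedding (Matrix.toLin' R) := e.toHomeomorph.measurableEmbedding
  have h1 := (he.integral_map (μ := volume) fun x => f (x + c)).symm
  rw [Real.map_matrix_volume_pi_eq_smul_volume_pi hR, integral_smul_measure,
    integral_add_right_eq_self (fun x => f x) c, ENNReal.toReal_ofReal (abs_nonneg _), abs_inv]
    at h1
  simpa [Matrix.toLin'_apply] using h1

lemma Zp_aff (hR : R.det ≠ 0) : Zp (aff U R c κ) = |R.det|⁻¹ * (Real.exp (-κ) * Zp U) := by
  simp only [Zp, aff, neg_add, Real.exp_add]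
  rw [integral_mul_const, integral_comp_affineMap R c hR fun x => Real.exp (-U x)]
  ring

lemma ex_aff (hR : R.det ≠ 0) (f : (Fin n → ℝ) → ℝ) :
    ex (aff U R c κ) (fun y => f (R *ᵥ y + c)) = ex U f := by
  rw [ex, Zp_aff R c κ hR, ex]
  simp only [aff, neg_add, Real.exp_add, ← mul_assoc]
  rw [integral_mul_const, integral_comp_affineMap R c hR fun x => f x * Real.exp (-U x)]
  have : |R.det| ≠ 0 := abs_ne_zero.2 hR
  field_simp

variable {R c κ}

lemma ex_affine_comb (h : Grow U) (w : Fin n → ℝ) (r : ℝ) :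
    ex U (fun x => w ⬝ᵥ x + r) = w ⬝ᵥ mn U + r := by
  simp only [dotProduct, mn]
  rw [h.ex_add (Poly.sum (F := fun i x => w i * x i) _ fun i _ => (Poly.coord i).const_mul _)
      (Poly.const r), h.ex_const,
    h.ex_sum _ (fun i _ => (Poly.coord i).const_mul (w i))]
  simp only [ex_const_mul]

lemma aff_coord (hR : R.det ≠ 0) (y : Fin n → ℝ) (i : Fin n) :
    y i = R⁻¹ i ⬝ᵥ (R *ᵥ y + c) - R⁻¹ i ⬝ᵥ c := by
  rw [dotProduct_add, add_sub_cancel_right]
  have := congrFun (show R⁻¹ *ᵥ (R *ᵥ y) = y by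
    rw [mulVec_mulVec, nonsing_inv_mul _ (isUnit_iff_ne_zero.2 hR), one_mulVec]) i
  rw [← this]
  rfl

lemma mn_aff (h : Grow U) (hR : R.det ≠ 0) :
    mn (aff U R c κ) = R⁻¹ *ᵥ (mn U - c) := by
  funext i
  calc mn (aff U R c κ) i
      = ex (aff U R c κ) (fun y => (fun x => R⁻¹ i ⬝ᵥ x + -(R⁻¹ i ⬝ᵥ c)) (R *ᵥ y + c)) := by
        simp only [mn]; congr 1; funext y; rw [aff_coord (c := c) hR y i]; ring
    _ = _ := by
        refine ((ex_aff R c κ hR _).trans (ex_affine_comb h _ _)).trans ?_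
        rw [← sub_eq_add_neg, ← dotProduct_sub]
        rfl

lemma covm_eq_ex (h : Grow U) (i j : Fin n) :
    covm U i j = ex U fun x => (x i - mn U i) * (x j - mn U j) := by
  have hi : Poly fun x : Fin n → ℝ => x i := Poly.coord i
  have hj : Poly fun x : Fin n → ℝ => x j := Poly.coord j
  have e : (fun x : Fin n → ℝ => (x i - mn U i) * (x j - mn U j)) = fun x =>
      x i * x j - (mn U j * x i + (mn U i * x j - mn U i * mn U j)) := by
    funext x; ring
  rw [e, h.ex_sub (hi.mul hj) ((hi.const_mul _).add ((hj.const_mul _).sub_const _)),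
    h.ex_add (hi.const_mul _) ((hj.const_mul _).sub_const _),
    h.ex_sub (hj.const_mul _) (Poly.const _), h.ex_const, ex_const_mul, ex_const_mul]
  simp only [covm, cv2, mn]
  ring

lemma covm_aff (hb : Bd U a b) (hR : R.det ≠ 0) :
    covm (aff U R c κ) = R⁻¹ * covm U * R⁻¹ᵀ := by
  obtain ⟨a', b', hb'⟩ := bd_aff (c := c) (κ := κ) hb hR
  ext i j
  rw [covm_eq_ex hb'.grow, mn_aff hb.grow hR]
  have e : (fun y : Fin n → ℝ => (y i - (R⁻¹ *ᵥ (mn U - c)) i) * (y j - (R⁻¹ *ᵥ (mn U - c)) j)) =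
      fun y => (fun x => ∑ k, ∑ l, R⁻¹ i k * R⁻¹ j l * ((x k - mn U k) * (x l - mn U l)))
        (R *ᵥ y + c) := by
    funext y
    have e1 : ∀ i, y i - (R⁻¹ *ᵥ (mn U - c)) i = ∑ k, R⁻¹ i k * ((R *ᵥ y + c) k - mn U k) := by
      intro i
      rw [aff_coord (c := c) hR y i]
      simp only [mulVec, dotProduct, Pi.sub_apply, mul_sub, sum_sub_distrib]
      ring
    rw [e1, e1, sum_mul_sum]
    exact sum_congr rfl fun k _ => sum_congr rfl fun l _ => by ring
  have hm : ∀ k : Fin n, Poly fun x : Fin n → ℝ => x k - mn U k := fun k =>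
    (Poly.coord k).sub_const _
  rw [e]
  refine (ex_aff (U := U) R c κ hR
    (fun x => ∑ k, ∑ l, R⁻¹ i k * R⁻¹ j l * ((x k - mn U k) * (x l - mn U l)))).trans ?_
  rw [hb.grow.ex_sum _ (fun k _ => Poly.sum _ fun l _ => ((hm k).mul (hm l)).const_mul _)]
  simp only [Matrix.mul_apply, transpose_apply, sum_mul]
  rw [sum_comm]
  refine sum_congr rfl fun k _ => ?_
  rw [hb.grow.ex_sum _ (fun l _ => ((hm k).mul (hm l)).const_mul _)]
  refine sum_congr rfl fun l _ => ?_
  rw [ex_const_mul, ← covm_eq_ex hb.grow]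
  ring

lemma quad_upper (h : Bd U a b) (x y : Fin n → ℝ) :
    U y ≤ U x + ∑ i, (y i - x i) * gr U x i + b / 2 * sumSq (y - x) := by
  set v := y - x with hv
  set f1 : ℝ → ℝ := fun r => b * r * sumSq v - ∑ i, v i * pd i U (x + r • v)
  have hd1 : ∀ r : ℝ, HasDerivAt f1 (b * sumSq v - v ⬝ᵥ (hs U (x + r • v) *ᵥ v)) r := by
    intro r
    have h1 := HasDerivAt.fun_sum (u := (Finset.univ : Finset (Fin n))) fun i _ =>
      (hasDerivAt_comp_line (h.diff_gr i) x v r).const_mul (v i)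
    have h2 : HasDerivAt (fun r : ℝ => b * r * sumSq v) (b * sumSq v) r := by
      simpa using ((hasDerivAt_id r).const_mul b).mul_const (sumSq v)
    refine (h2.sub h1).congr_deriv ?_
    congr 1
    simp only [dotProduct, mulVec, mul_sum]
    refine sum_congr rfl fun i _ => sum_congr rfl fun j _ => ?_
    rw [hs_symm h.smooth]
    simp only [hs]; ring
  have hmono : Monotone f1 := monotone_of_hasDerivAt_nonneg hd1 fun r => by
    simpa using h.upper (x + r • v) v
  have hd0 : ∀ r : ℝ,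
      HasDerivAt (fun r : ℝ => b / 2 * r ^ 2 * sumSq v - U (x + r • v)) (f1 r) r := by
    intro r
    refine ((((hasDerivAt_pow 2 r).const_mul (b / 2)).mul_const (sumSq v)).sub
      (hasDerivAt_comp_line h.diff x v r)).congr_deriv ?_
    simp only [f1]; push_cast; ring
  obtain ⟨r, hr, e⟩ := exists_hasDerivAt_eq_slope
    (fun r : ℝ => b / 2 * r ^ 2 * sumSq v - U (x + r • v))
    f1 zero_lt_one (fun r _ => (hd0 r).continuousAt.continuousWithinAt) (fun r _ => hd0 r)
  have h3 : f1 0 ≤ f1 r := hmono hr.1.le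
  have e2 : x + v = y := add_sub_cancel x y
  simp [f1, e2] at h3 e
  simp only [hv, Pi.sub_apply] at h3 e ⊢
  simp only [gr]
  linarith

lemma poly_potential (h : Bd U a b) : Poly U := by
  refine (((Poly.const |U 0|).add (Poly.sum univ fun i _ =>
    ((Poly.coord i).mul_const (gr U 0 i)).abs)).add (Poly.sumSq'.const_mul b)).of_le
    h.smooth.continuous fun x => ?_
  have h1 := h.quad_lower x
  have h2 := quad_upper h 0 x
  simp only [sub_zero, Pi.zero_apply] at h2
  refine le_trans ?_ (le_abs_self _)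
  have h3 := abs_sum_le_sum_abs (fun i => x i * gr U 0 i) (univ : Finset (Fin n))
  have := mul_nonneg h.a_pos.le (sumSq_nonneg x)
  have := mul_nonneg h.b_pos.le (sumSq_nonneg x)
  obtain ⟨h4, h5⟩ := abs_le.1 h3
  exact abs_le.2 ⟨by linarith [neg_le_abs (U 0)], by linarith [le_abs_self (U 0)]⟩

lemma gdef_aff (hb : Bd U a b) (hR : R.det ≠ 0) (hd : 0 < (covm U).det) :
    gdef (aff U R c κ) = gdef U := by
  obtain ⟨a', b', hb'⟩ := bd_aff (c := c) (κ := κ) hb hR
  have hU : ∀ V : (Fin n → ℝ) → ℝ, ex (aff U R c κ) (fun y => V (R *ᵥ y + c)) = ex U V :=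
    ex_aff R c κ hR
  have e1 : ex (aff U R c κ) (aff U R c κ) = ex U fun x => U x + κ := hU fun x => U x + κ
  have e2 : ex U (fun x => U x + κ) = ex U U + κ := by
    simp only [ex, add_mul]
    by_cases hi : Integrable fun x => U x * Real.exp (-U x)
    · rw [integral_add hi (hb.grow.integrable_exp.const_mul κ), integral_const_mul, ← Zp, add_div,
        mul_div_assoc, div_self hb.grow.Zp_pos.ne', mul_one]
    · exfalso
      exact hi (hb.grow.integrable (poly_potential hb))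
  have e3 : (covm (aff U R c κ)).det = (covm U).det / R.det ^ 2 := by
    rw [covm_aff hb hR, det_mul, det_mul, det_transpose, det_nonsing_inv, Ring.inverse_eq_inv']
    field_simp
  simp only [gdef, e1, e2, e3, Zp_aff R c κ hR]
  rw [Real.log_mul (inv_ne_zero (abs_ne_zero.2 hR)) (mul_pos (Real.exp_pos _) hb.grow.Zp_pos).ne',
    Real.log_mul (Real.exp_pos _).ne' hb.grow.Zp_pos.ne', Real.log_inv, Real.log_exp, Real.log_abs,
    Real.log_div hd.ne' (pow_ne_zero 2 hR), Real.log_pow]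
  push_cast
  ring

end Vale.Agent.P254M.Gap
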