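import Vale.Agent.P254M.Gap.Jet

/-!
Second order lower bounds for `log det` of weighted covariance perturbations.
-/

open Filter Topology Finset Matrix

namespace Vale.Agent.P254M.Gap

variable {ι n : Type*} [Fintype n] [DecidableEq n] {l : Filter ι} {h : ι → ℝ}

omit [DecidableEq n] in
lemma trace_sq_eq {X : Matrix n n ℝ} (hX : X.IsHermitian) :
    (X * X).trace = ∑ a, ∑ b, X a b ^ 2 := by
  simp only [Matrix.trace, Matrix.diag, Matrix.mul_apply]
  refine sum_congr rfl fun a _ => sum_congr rfl fun b _ => ?_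
  have := hX.apply a b
  simp only [star_trivial] at this
  rw [this]; ring

lemma tendsto_sq_trace {X : ι → Matrix n n ℝ} {B : Matrix n n ℝ}
    (hX : ∀ᶠ j in l, (X j).IsHermitian)
    (J : ∀ a b, Tendsto (fun j => X j a b / h j) l (𝓝 (B a b))) :
    Tendsto (fun j => (X j * X j).trace / h j ^ 2) l (𝓝 (∑ a, ∑ b, B a b ^ 2)) := by
  have := tendsto_finsetSum (s := Finset.univ) fun a _ =>
    tendsto_finsetSum (s := Finset.univ) fun b _ => (J a b).pow 2
  refine this.congr' (hX.mono fun j hj => ?_)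
  simp only []
  rw [trace_sq_eq hj, sum_div]
  refine sum_congr rfl fun a _ => ?_
  rw [sum_div]
  exact sum_congr rfl fun b _ => by rw [div_pow]

lemma eventually_sq_trace_small {X : ι → Matrix n n ℝ} {B : Matrix n n ℝ}
    (hh : Tendsto h l (𝓝 0)) (h0 : ∀ᶠ j in l, h j ≠ 0)
    (hX : ∀ᶠ j in l, (X j).IsHermitian)
    (J : ∀ a b, Tendsto (fun j => X j a b / h j) l (𝓝 (B a b))) :
    Tendsto (fun j => (X j * X j).trace) l (𝓝 0) := by
  have := (tendsto_sq_trace hX J).mul (hh.pow 2)
  simp only [ne_eq, OfNat.ofNat_ne_zero, not_false_eq_true, zero_pow, mul_zero] at this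
  exact this.congr' (h0.mono fun j hj => by field_simp)

/-- One-sided first order lower bound. -/
lemma exists_lower_one {X : ι → Matrix n n ℝ} {B : Matrix n n ℝ}
    (hh : Tendsto h l (𝓝 0)) (h0 : ∀ᶠ j in l, h j ≠ 0)
    (hX : ∀ᶠ j in l, (X j).IsHermitian)
    (J : ∀ a b, Tendsto (fun j => X j a b / h j) l (𝓝 (B a b))) :
    ∃ g : ι → ℝ, (∀ᶠ j in l, g j ≤ Real.log (1 + X j).det) ∧
      Tendsto (fun j => g j / h j) l (𝓝 (∑ a, B a a)) := by
  set Q := fun j => (X j * X j).trace
  have hQ : Tendsto Q l (𝓝 0) := eventually_sq_trace_small hh h0 hX J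
  refine ⟨fun j => (X j).trace - Q j / 2 - 2 * Q j * Real.sqrt (Q j), ?_, ?_⟩
  · filter_upwards [hX, hQ.eventually (eventually_le_nhds (by norm_num : (0:ℝ) < 1 / 4))]
      with j hj hj' using log_det_one_add_ge hj hj'
  · have ht : Tendsto (fun j => (X j).trace / h j) l (𝓝 (∑ a, B a a)) :=
      (tendsto_finsetSum (s := Finset.univ) fun a _ => J a a).congr fun j => by
        simp only [Matrix.trace, Matrix.diag, sum_div]
    have := ht.sub ((hh.mul (tendsto_sq_trace hX J)).mul
      ((hQ.sqrt.const_mul 2).const_add (1 / 2)))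
    simp only [zero_mul, sub_zero] at this
    refine this.congr' (h0.mono fun j hj => ?_)
    simp only [Q]
    field_simp
    ring

/-- Symmetric second order lower bound. -/
lemma exists_lower_two {Xp Xm : ι → Matrix n n ℝ} {B C : Matrix n n ℝ}
    (hh : Tendsto h l (𝓝 0)) (h0 : ∀ᶠ j in l, h j ≠ 0)
    (hp : ∀ᶠ j in l, (Xp j).IsHermitian) (hm : ∀ᶠ j in l, (Xm j).IsHermitian)
    (J : ∀ a b, Jet2 l h (fun j => Xp j a b) (fun j => Xm j a b) (fun _ => 0) 0 (B a b) (C a b)) :
    ∃ g : ι → ℝ,
      (∀ᶠ j in l, g j ≤ Real.log (1 + Xp j).det + Real.log (1 + Xm j).det) ∧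
      Tendsto (fun j => g j / h j ^ 2) l (𝓝 ((∑ a, C a a) - ∑ a, ∑ b, B a b ^ 2)) := by
  have Jp : ∀ a b, Tendsto (fun j => Xp j a b / h j) l (𝓝 (B a b)) := fun a b => by
    simpa using (J a b).plus.one
  have Jm : ∀ a b, Tendsto (fun j => Xm j a b / h j) l (𝓝 (-B a b)) := fun a b => by
    simpa using (J a b).minus.one
  set P := fun j => (Xp j * Xp j).trace
  set M := fun j => (Xm j * Xm j).trace
  have hP : Tendsto P l (𝓝 0) := eventually_sq_trace_small hh h0 hp Jp
  have hM : Tendsto M l (𝓝 0) := eventually_sq_trace_small (B := -B) hh h0 hm Jm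
  refine ⟨fun j => ((Xp j).trace - P j / 2 - 2 * P j * Real.sqrt (P j)) +
    ((Xm j).trace - M j / 2 - 2 * M j * Real.sqrt (M j)), ?_, ?_⟩
  · filter_upwards [hp, hm, hP.eventually (eventually_le_nhds (by norm_num : (0:ℝ) < 1 / 4)),
      hM.eventually (eventually_le_nhds (by norm_num : (0:ℝ) < 1 / 4))] with j h1 h2 h3 h4
    exact add_le_add (log_det_one_add_ge h1 h3) (log_det_one_add_ge h2 h4)
  · have ht : Tendsto (fun j => ((Xp j).trace + (Xm j).trace) / h j ^ 2) l (𝓝 (∑ a, C a a)) := by
      refine (tendsto_finsetSum (s := Finset.univ) fun a _ => (J a a).two).congr fun j => ?_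
      simp only [Matrix.trace, Matrix.diag, mul_zero, sub_zero, ← sum_add_distrib, sum_div]
    have h2 : Tendsto (fun j => M j / h j ^ 2) l (𝓝 (∑ a, ∑ b, B a b ^ 2)) := by
      simpa using tendsto_sq_trace (B := -B) hm Jm
    have := ht.sub (((tendsto_sq_trace hp Jp).mul ((hP.sqrt.const_mul 2).const_add (1 / 2))).add
      (h2.mul ((hM.sqrt.const_mul 2).const_add (1 / 2))))
    simp only [Real.sqrt_zero, mul_zero, add_zero] at this
    rw [← two_mul, ← mul_assoc, mul_comm 2, mul_assoc] at this
    norm_num at this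
    refine this.congr' (h0.mono fun j hj => ?_)
    simp only [P, M]
    field_simp
    ring

/-- The weighted perturbation of the identity. -/
noncomputable def wpert (r : n → ℝ) (M : Matrix n n ℝ) : Matrix n n ℝ :=
  fun a b => Real.sqrt (r a) * Real.sqrt (r b) * (M a b - (1 : Matrix n n ℝ) a b)

omit [Fintype n] in
lemma wpert_isHermitian (r : n → ℝ) {M : Matrix n n ℝ} (hM : M.IsHermitian) :
    (wpert r M).IsHermitian := by
  refine IsHermitian.ext fun a b => ?_
  have h := hM.apply a b
  simp only [star_trivial] at h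
  simp only [wpert, star_trivial, h, one_apply, eq_comm (a := b)]
  ring

lemma det_one_add_diagonal_mul {s : n → ℝ} (hs : ∀ a, 0 ≤ s a) (M : Matrix n n ℝ) :
    (1 + diagonal s * M).det =
      (∏ a, (1 + s a)) * (1 + wpert (fun a => s a / (1 + s a)) M).det := by
  set E := diagonal fun a => Real.sqrt (s a) with hE
  set D := diagonal fun a => Real.sqrt (1 + s a) with hD
  have h1 : diagonal s = E * E := by
    rw [hE, diagonal_mul_diagonal]
    congr 1; funext a; rw [Real.mul_self_sqrt (hs a)]
  have h2 : 1 + E * M * E = D * (1 + wpert (fun a => s a / (1 + s a)) M) * D := by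
    ext a b
    have ha : 0 < 1 + s a := by linarith [hs a]
    have hb : 0 < 1 + s b := by linarith [hs b]
    simp only [hE, hD, mul_diagonal, diagonal_mul, Matrix.add_apply, wpert, Real.sqrt_div (hs _)]
    by_cases hab : a = b
    · subst hab
      simp only [one_apply_eq]
      field_simp
      nlinarith [Real.mul_self_sqrt ha.le, Real.mul_self_sqrt (hs a)]
    · simp only [one_apply_ne hab]
      field_simp
      ring
  rw [h1, Matrix.mul_assoc, det_one_add_mul_comm, h2, det_mul, det_mul, hD, det_diagonal,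
    mul_right_comm, ← prod_mul_distrib]
  congr 1
  exact prod_congr rfl fun a _ => Real.mul_self_sqrt (by linarith [hs a])

end Vale.Agent.P254M.Gap
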