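import Mathlib

/-!
First and second order difference quotients along a filter, and a lower bound for
`log det (1 + X)`.
-/

open Filter Topology Finset Matrix

namespace Vale.Agent.P254M.Gap

variable {ι : Type*} {l : Filter ι} {h p m z p' m' z' : ι → ℝ} {A B C A' B' C' : ℝ}

/-- One-sided first order expansion. -/
structure Jet1 (l : Filter ι) (h p z : ι → ℝ) (A B : ℝ) : Prop where
  zero : Tendsto z l (𝓝 A)
  one : Tendsto (fun j => (p j - z j) / h j) l (𝓝 B)

/-- Symmetric second order expansion. -/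
structure Jet2 (l : Filter ι) (h p m z : ι → ℝ) (A B C : ℝ) : Prop where
  plus : Jet1 l h p z A B
  minus : Jet1 l h m z A (-B)
  two : Tendsto (fun j => (p j + m j - 2 * z j) / h j ^ 2) l (𝓝 C)

namespace Jet1

lemma value (J : Jet1 l h p z A B) (hh : Tendsto h l (𝓝 0)) (h0 : ∀ᶠ j in l, h j ≠ 0) :
    Tendsto p l (𝓝 A) := by
  have := J.zero.add (hh.mul J.one)
  simp only [zero_mul, add_zero] at this
  refine this.congr' (h0.mono fun j hj => ?_)
  field_simp
  ring

lemma const (hA : Tendsto z l (𝓝 A)) : Jet1 l h z z A 0 :=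
  ⟨hA, by simpa using tendsto_const_nhds⟩

lemma add (J : Jet1 l h p z A B) (J' : Jet1 l h p' z' A' B') :
    Jet1 l h (fun j => p j + p' j) (fun j => z j + z' j) (A + A') (B + B') := by
  refine ⟨J.zero.add J'.zero, (J.one.add J'.one).congr fun j => ?_⟩
  ring

lemma smul (J : Jet1 l h p z A B) (c : ℝ) :
    Jet1 l h (fun j => c * p j) (fun j => c * z j) (c * A) (c * B) := by
  refine ⟨J.zero.const_mul c, (J.one.const_mul c).congr fun j => ?_⟩
  ring

lemma sub (J : Jet1 l h p z A B) (J' : Jet1 l h p' z' A' B') :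
    Jet1 l h (fun j => p j - p' j) (fun j => z j - z' j) (A - A') (B - B') := by
  refine ⟨J.zero.sub J'.zero, (J.one.sub J'.one).congr fun j => ?_⟩
  ring

lemma mul (J : Jet1 l h p z A B) (J' : Jet1 l h p' z' A' B') (hh : Tendsto h l (𝓝 0))
    (h0 : ∀ᶠ j in l, h j ≠ 0) :
    Jet1 l h (fun j => p j * p' j) (fun j => z j * z' j) (A * A') (A * B' + B * A') := by
  refine ⟨J.zero.mul J'.zero, ?_⟩
  refine (((J.value hh h0).mul J'.one).add (J.one.mul J'.zero)).congr fun j => ?_
  ring

lemma inv (J : Jet1 l h p z A B) (hA : A ≠ 0) (hh : Tendsto h l (𝓝 0))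
    (h0 : ∀ᶠ j in l, h j ≠ 0) :
    Jet1 l h (fun j => (p j)⁻¹) (fun j => (z j)⁻¹) A⁻¹ (-B / A ^ 2) := by
  have hp := J.value hh h0
  refine ⟨J.zero.inv₀ hA, ?_⟩
  have := (J.one.neg).div (hp.mul J.zero) (mul_ne_zero hA hA)
  rw [← pow_two] at this
  refine this.congr' ?_
  filter_upwards [hp.eventually_ne hA, J.zero.eventually_ne hA] with j h1 h2
  simp only [Pi.div_apply]
  rcases eq_or_ne (h j) 0 with h3 | h3
  · simp [h3]
  · field_simp
    ring

/-- Multiplication by the step. -/
lemma step (hp : Tendsto p l (𝓝 A)) (h0 : ∀ᶠ j in l, h j ≠ 0) :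
    Jet1 l h (fun j => h j * p j) (fun _ => 0) 0 A := by
  refine ⟨tendsto_const_nhds, hp.congr' (h0.mono fun j hj => ?_)⟩
  field_simp
  ring

end Jet1

lemma abs_log_one_add_sub {u : ℝ} (hu : |u| ≤ 1 / 2) :
    |Real.log (1 + u) - (u - u ^ 2 / 2)| ≤ 2 * |u| ^ 3 := by
  have h := Real.abs_log_sub_add_sum_range_le (x := -u) (by rw [abs_neg]; linarith) 2
  simp only [Finset.sum_range_succ, Finset.sum_range_zero, abs_neg, sub_neg_eq_add] at h
  norm_num at h
  calc |Real.log (1 + u) - (u - u ^ 2 / 2)| = |-u + u ^ 2 / 2 + Real.log (1 + u)| := by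
        congr 1; ring
    _ ≤ |u| ^ 3 / (1 - |u|) := h
    _ ≤ _ := by
      rw [div_le_iff₀ (by linarith)]
      nlinarith [abs_nonneg u, pow_nonneg (abs_nonneg u) 3]

/-- The logarithm near one, to second order, along a filter. -/
lemma tendsto_log_quot {u : ι → ℝ} (hh : Tendsto h l (𝓝 0)) (h0 : ∀ᶠ j in l, h j ≠ 0)
    (hu : Tendsto (fun j => u j / h j) l (𝓝 B)) :
    Tendsto (fun j => (Real.log (1 + u j) - (u j - u j ^ 2 / 2)) / h j ^ 2) l (𝓝 0) := by
  have hu0 : Tendsto u l (𝓝 0) := by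
    have := hu.mul hh
    simp only [mul_zero] at this
    exact this.congr' (h0.mono fun j hj => by field_simp)
  have hb : Tendsto (fun j => 2 * |u j| * (u j / h j) ^ 2) l (𝓝 0) := by
    simpa using ((hu0.abs.const_mul 2).mul (hu.pow 2))
  refine squeeze_zero_norm' ?_ hb
  filter_upwards [hu0.abs.eventually (eventually_le_nhds (by norm_num : |(0:ℝ)| < 1 / 2))] with j hj
  rw [Real.norm_eq_abs, abs_div, abs_pow, sq_abs, div_pow, ← mul_div_assoc]
  refine div_le_div_of_nonneg_right ((abs_log_one_add_sub hj).trans_eq ?_) (sq_nonneg _)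
  rw [pow_succ', sq_abs]
  ring

lemma Jet1.log (J : Jet1 l h p z A B) (hA : 0 < A) (hh : Tendsto h l (𝓝 0))
    (h0 : ∀ᶠ j in l, h j ≠ 0) :
    Jet1 l h (fun j => Real.log (p j)) (fun j => Real.log (z j)) (Real.log A) (B / A) := by
  refine ⟨J.zero.log hA.ne', ?_⟩
  set u := fun j => (p j - z j) / z j with hu
  have h1 : Tendsto (fun j => u j / h j) l (𝓝 (B / A)) := by
    refine (J.one.div J.zero hA.ne').congr fun j => ?_
    simp only [Pi.div_apply, hu]; ring
  have h2 : Tendsto u l (𝓝 0) := by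
    have := h1.mul hh
    simp only [mul_zero] at this
    exact this.congr' (h0.mono fun j hj => by field_simp)
  have h3 : Tendsto (fun j => h j * ((Real.log (1 + u j) - (u j - u j ^ 2 / 2)) / h j ^ 2) +
      u j / h j * (1 - u j / 2)) l (𝓝 (B / A)) := by
    simpa using (hh.mul (tendsto_log_quot hh h0 h1)).add
      (h1.mul ((h2.div_const 2).const_sub 1))
  refine h3.congr' ?_
  filter_upwards [h0, (J.value hh h0).eventually (eventually_gt_nhds hA),
    J.zero.eventually (eventually_gt_nhds hA)] with j hj hp hz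
  have e : Real.log (1 + u j) = Real.log (p j) - Real.log (z j) := by
    rw [← Real.log_div hp.ne' hz.ne']; congr 1; simp only [hu]; field_simp; ring
  rw [e]; field_simp; ring

namespace Jet2

lemma const (hA : Tendsto z l (𝓝 A)) : Jet2 l h z z z A 0 0 :=
  ⟨Jet1.const hA, by simpa using Jet1.const hA, tendsto_const_nhds.congr fun j => by ring⟩

lemma add (J : Jet2 l h p m z A B C) (J' : Jet2 l h p' m' z' A' B' C') :
    Jet2 l h (fun j => p j + p' j) (fun j => m j + m' j) (fun j => z j + z' j)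
      (A + A') (B + B') (C + C') := by
  refine ⟨J.plus.add J'.plus, ?_, (J.two.add J'.two).congr fun j => by ring⟩
  rw [neg_add]
  exact J.minus.add J'.minus

lemma sub (J : Jet2 l h p m z A B C) (J' : Jet2 l h p' m' z' A' B' C') :
    Jet2 l h (fun j => p j - p' j) (fun j => m j - m' j) (fun j => z j - z' j)
      (A - A') (B - B') (C - C') := by
  refine ⟨J.plus.sub J'.plus, ?_, (J.two.sub J'.two).congr fun j => by ring⟩
  rw [show -(B - B') = -B - -B' by ring]
  exact J.minus.sub J'.minus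

lemma smul (J : Jet2 l h p m z A B C) (c : ℝ) :
    Jet2 l h (fun j => c * p j) (fun j => c * m j) (fun j => c * z j) (c * A) (c * B) (c * C) := by
  refine ⟨J.plus.smul c, ?_, (J.two.const_mul c).congr fun j => by ring⟩
  rw [← mul_neg]
  exact J.minus.smul c

lemma mul (J : Jet2 l h p m z A B C) (J' : Jet2 l h p' m' z' A' B' C') (hh : Tendsto h l (𝓝 0))
    (h0 : ∀ᶠ j in l, h j ≠ 0) :
    Jet2 l h (fun j => p j * p' j) (fun j => m j * m' j) (fun j => z j * z' j)
      (A * A') (A * B' + B * A') (C * A' + A * C' + 2 * B * B') := by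
  refine ⟨J.plus.mul J'.plus hh h0, ?_, ?_⟩
  · rw [show -(A * B' + B * A') = A * -B' + -B * A' by ring]
    exact J.minus.mul J'.minus hh h0
  have := (((J.two.mul J'.plus.zero).add (J.plus.zero.mul J'.two)).add
    (J.plus.one.mul J'.plus.one)).add (J.minus.one.mul J'.minus.one)
  rw [show C * A' + A * C' + B * B' + -B * -B' = C * A' + A * C' + 2 * B * B' by ring] at this
  exact this.congr fun j => by ring

lemma inv (J : Jet2 l h p m z A B C) (hA : A ≠ 0) (hh : Tendsto h l (𝓝 0))
    (h0 : ∀ᶠ j in l, h j ≠ 0) :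
    Jet2 l h (fun j => (p j)⁻¹) (fun j => (m j)⁻¹) (fun j => (z j)⁻¹)
      A⁻¹ (-B / A ^ 2) (-C / A ^ 2 + 2 * B ^ 2 / A ^ 3) := by
  refine ⟨J.plus.inv hA hh h0, ?_, ?_⟩
  · rw [show -(-B / A ^ 2) = -(-B) / A ^ 2 by ring]
    exact J.minus.inv hA hh h0
  have hp := J.plus.value hh h0
  have hm := J.minus.value hh h0
  have := ((J.two.neg).div (J.plus.zero.pow 2) (pow_ne_zero 2 hA)).add
    (((J.plus.one.pow 2).div ((J.plus.zero.pow 2).mul hp) (mul_ne_zero (pow_ne_zero 2 hA) hA)).add
      ((J.minus.one.pow 2).div ((J.plus.zero.pow 2).mul hm)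
        (mul_ne_zero (pow_ne_zero 2 hA) hA)))
  rw [show -C / A ^ 2 + (B ^ 2 / (A ^ 2 * A) + (-B) ^ 2 / (A ^ 2 * A))
      = -C / A ^ 2 + 2 * B ^ 2 / A ^ 3 by ring] at this
  refine this.congr' ?_
  filter_upwards [hp.eventually_ne hA, hm.eventually_ne hA, J.plus.zero.eventually_ne hA, h0]
    with j h1 h2 h3 h4
  simp only [Pi.div_apply]
  field_simp
  ring

lemma log (J : Jet2 l h p m z A B C) (hA : 0 < A) (hh : Tendsto h l (𝓝 0))
    (h0 : ∀ᶠ j in l, h j ≠ 0) :
    Jet2 l h (fun j => Real.log (p j)) (fun j => Real.log (m j)) (fun j => Real.log (z j))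
      (Real.log A) (B / A) (C / A - B ^ 2 / A ^ 2) := by
  refine ⟨J.plus.log hA hh h0, by simpa [neg_div] using J.minus.log hA hh h0, ?_⟩
  have hz := J.plus.zero
  have u1 : Tendsto (fun j => (p j - z j) / z j / h j) l (𝓝 (B / A)) :=
    (J.plus.one.div hz hA.ne').congr fun j => by simp only [Pi.div_apply]; ring
  have u2 : Tendsto (fun j => (m j - z j) / z j / h j) l (𝓝 (-B / A)) :=
    (J.minus.one.div hz hA.ne').congr fun j => by simp only [Pi.div_apply]; ring
  have := ((tendsto_log_quot hh h0 u1).add (tendsto_log_quot hh h0 u2)).add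
    (((J.two.div hz hA.ne')).sub (((u1.pow 2).add (u2.pow 2)).div_const 2))
  rw [show 0 + 0 + (C / A - ((B / A) ^ 2 + (-B / A) ^ 2) / 2) = C / A - B ^ 2 / A ^ 2 by ring]
    at this
  refine this.congr' ?_
  filter_upwards [h0, (J.plus.value hh h0).eventually (eventually_gt_nhds hA),
    (J.minus.value hh h0).eventually (eventually_gt_nhds hA),
    hz.eventually (eventually_gt_nhds hA)] with j hj hp hm hz
  have e1 : Real.log (1 + (p j - z j) / z j) = Real.log (p j) - Real.log (z j) := by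
    rw [← Real.log_div hp.ne' hz.ne']; congr 1; field_simp; ring
  have e2 : Real.log (1 + (m j - z j) / z j) = Real.log (m j) - Real.log (z j) := by
    rw [← Real.log_div hm.ne' hz.ne']; congr 1; field_simp; ring
  simp only [Pi.div_apply]
  rw [e1, e2]; field_simp; ring

/-- Multiplication by the step. -/
lemma step (J : Jet2 l h p m z A B C) (hh : Tendsto h l (𝓝 0)) (h0 : ∀ᶠ j in l, h j ≠ 0) :
    Jet2 l h (fun j => h j * p j) (fun j => -(h j * m j)) (fun _ => 0) 0 A (2 * B) := by
  refine ⟨Jet1.step (J.plus.value hh h0) h0, ?_, ?_⟩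
  · simpa using (Jet1.step (J.minus.value hh h0) h0).smul (-1)
  have := J.plus.one.sub J.minus.one
  rw [sub_neg_eq_add, ← two_mul] at this
  refine this.congr' (h0.mono fun j hj => ?_)
  field_simp
  ring

end Jet2

variable {n : Type*} [Fintype n] [DecidableEq n]

/-- Lower second order bound for `log det (1 + X)`. -/
lemma log_det_one_add_ge {X : Matrix n n ℝ} (hX : X.IsHermitian)
    (hs : (X * X).trace ≤ 1 / 4) :
    X.trace - (X * X).trace / 2 - 2 * (X * X).trace * Real.sqrt (X * X).trace ≤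
      Real.log (1 + X).det := by
  set μ := hX.eigenvalues
  set U : Matrix n n ℝ := ↑(hX.eigenvectorUnitary) with hU
  have hU1 : star U * U = 1 := Unitary.coe_star_mul_self _
  have hU2 : U * star U = 1 := Unitary.coe_mul_star_self _
  have hd : X = U * diagonal μ * star U := by
    have := hX.spectral_theorem
    simpa [Unitary.conjStarAlgAut_apply, hU, μ, Function.comp_def] using this
  have htr : X.trace = ∑ i, μ i := by
    rw [hd, trace_mul_comm, ← Matrix.mul_assoc, hU1, one_mul, trace_diagonal]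
  have htr2 : (X * X).trace = ∑ i, μ i ^ 2 := by
    have e : X * X = U * (diagonal μ * diagonal μ) * star U := by
      conv_lhs => rw [hd]
      rw [show U * diagonal μ * star U * (U * diagonal μ * star U) =
        U * diagonal μ * (star U * U) * diagonal μ * star U by simp only [Matrix.mul_assoc], hU1]
      simp only [Matrix.mul_one, Matrix.mul_assoc]
    rw [e, trace_mul_comm, ← Matrix.mul_assoc, hU1, one_mul, diagonal_mul_diagonal, trace_diagonal]
    simp [pow_two]
  have hdet : (1 + X).det = ∏ i, (1 + μ i) := by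
    have e : 1 + X = U * diagonal (fun i => 1 + μ i) * star U := by
      have : diagonal (fun i => 1 + μ i) = (1 : Matrix n n ℝ) + diagonal μ := by
        ext i j; by_cases hij : i = j <;> simp [hij]
      rw [this, Matrix.mul_add, Matrix.mul_one, Matrix.add_mul, hU2, ← hd]
    rw [e, det_mul, det_mul, mul_right_comm, ← det_mul, hU2, det_one, one_mul, det_diagonal]
  have hsum : 0 ≤ ∑ i, μ i ^ 2 := sum_nonneg fun i _ => sq_nonneg _
  have hle : ∀ i, |μ i| ≤ Real.sqrt (∑ k, μ k ^ 2) := fun i => by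
    rw [← Real.sqrt_sq_eq_abs]
    exact Real.sqrt_le_sqrt (single_le_sum (fun k _ => sq_nonneg (μ k)) (mem_univ i))
  have hhalf : Real.sqrt (∑ k, μ k ^ 2) ≤ 1 / 2 := by
    rw [Real.sqrt_le_left (by norm_num), ← htr2]; linarith
  have hpos : ∀ i, 0 < 1 + μ i := fun i => by linarith [(abs_le.1 ((hle i).trans hhalf)).1]
  rw [hdet, Real.log_prod fun i _ => (hpos i).ne', htr, htr2]
  calc _ = ∑ i, (μ i - μ i ^ 2 / 2 - 2 * μ i ^ 2 * Real.sqrt (∑ k, μ k ^ 2)) := by
        rw [sum_sub_distrib, sum_sub_distrib, ← sum_div, ← sum_mul, ← mul_sum]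
    _ ≤ _ := by
        refine sum_le_sum fun i _ => ?_
        have h1 := (abs_le.1 (abs_log_one_add_sub ((hle i).trans hhalf))).1
        have h2 : |μ i| ^ 3 ≤ μ i ^ 2 * Real.sqrt (∑ k, μ k ^ 2) := by
          rw [pow_succ, sq_abs]
          exact mul_le_mul_of_nonneg_left (hle i) (sq_nonneg _)
        linarith

end Vale.Agent.P254M.Gap
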