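import Vale.Agent.P254M.Score
import Vale.Agent.P254M.Gap.Jet
import Vale.Agent.P254M.Gap.Affine

/-!
Uniform bounds for normalised potentials, and second order expansions of exponentially tilted
integrals along a sequence of such potentials.
-/

open MeasureTheory Set Filter Topology Finset Matrix
open Vale.Agent.P245 hiding cv
open scoped ContDiff

namespace Vale.Agent.P254M.Gap

variable {n : ℕ}

lemma exp_sub_two_le (y : ℝ) :
    |Real.exp y - 1 - y - y ^ 2 / 2| ≤ |y| ^ 3 * Real.exp |y| := by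
  have h := Complex.norm_exp_sub_sum_le_norm_mul_exp (y : ℂ) 3
  simp only [Finset.sum_range_succ, Finset.sum_range_zero, Complex.norm_real, Real.norm_eq_abs]
    at h
  norm_num at h
  calc |Real.exp y - 1 - y - y ^ 2 / 2| = ‖Complex.exp y - (1 + (y:ℂ) + (y:ℂ) ^ 2 / 2)‖ := by
        rw [← Real.norm_eq_abs, ← Complex.norm_real]
        congr 1
        push_cast
        ring
    _ ≤ _ := h

/-- The weight `1 + |x|^2`. -/
noncomputable def wt (x : Fin n → ℝ) : ℝ := 1 + sumSq x

lemma one_le_wt (x : Fin n → ℝ) : 1 ≤ wt x := le_add_of_nonneg_right (sumSq_nonneg x)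

lemma abs_coord_le (x : Fin n → ℝ) (i : Fin n) : |x i| ≤ wt x := by
  unfold wt
  nlinarith [sq_le_sumSq x i, sq_abs (x i), sq_nonneg (|x i| - 1)]

lemma poly_wt : Poly (wt : (Fin n → ℝ) → ℝ) := (Poly.const 1).add Poly.sumSq'

/-- A potential in normal position with curvature between `1 / r` and `r`. -/
structure Nz (U : (Fin n → ℝ) → ℝ) (r : ℝ) : Prop where
  one_le : 1 ≤ r
  bd : Bd U r⁻¹ r
  mass : Zp U = 1
  mean : mn U = 0
  cov : covm U = 1

namespace Nz

variable {U : (Fin n → ℝ) → ℝ} {r : ℝ} (h : Nz U r)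
include h

lemma r_pos : 0 < r := zero_lt_one.trans_le h.one_le

lemma ex_eq (f : (Fin n → ℝ) → ℝ) : ex U f = ∫ x, f x * Real.exp (-U x) := by
  rw [ex, h.mass, div_one]

lemma ex_coord (i : Fin n) : ex U (fun x => x i) = 0 := congrFun h.mean i

lemma ex_coord_mul (i j : Fin n) :
    ex U (fun x => x i * x j) = (1 : Matrix (Fin n) (Fin n) ℝ) i j := by
  have := congrFun (congrFun h.cov i) j
  simpa [covm, cv2, h.ex_coord] using this

lemma abs_gr_zero_le (i : Fin n) : |gr U 0 i| ≤ r * n := by
  have hG := h.bd.grow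
  set f : (Fin n → ℝ) → ℝ := fun x => ∑ j, r * ((1 + x j * x j) / 2) with hf
  have hpoly : ∀ j : Fin n, Poly fun x : Fin n → ℝ => r * ((1 + x j * x j) / 2) := fun j =>
    ((((Poly.const 1).add ((Poly.coord j).mul (Poly.coord j))).mul_const (1 / 2)).congr
      fun x => by ring).const_mul r
  have h1 : |ex U fun x => gr U x i - gr U 0 i| ≤ ex U f := by
    refine hG.abs_ex_le ((h.bd.poly_gr i).sub_const _) (Poly.sum _ fun j _ => hpoly j) fun x => ?_
    refine (abs_pd_sub_le (h.bd.diff_gr i) (fun j y => by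
      have := h.bd.abs_hs_le j i y
      simpa [hs] using this) 0 x).trans ?_
    rw [mul_sum]
    refine sum_le_sum fun j _ => mul_le_mul_of_nonneg_left ?_ h.r_pos.le
    simp only [Pi.zero_apply, sub_zero]
    nlinarith [sq_abs (x j), sq_nonneg (|x j| - 1)]
  rw [hG.ex_sub (h.bd.poly_gr i) (Poly.const _), h.bd.ex_gr, hG.ex_const, zero_sub, abs_neg] at h1
  refine h1.trans (le_of_eq ?_)
  rw [hf, hG.ex_sum _ fun j _ => hpoly j]
  have : ∀ j : Fin n, ex U (fun x => r * ((1 + x j * x j) / 2)) = r := fun j => by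
    have e : (fun x : Fin n → ℝ => r * ((1 + x j * x j) / 2)) =
        fun x => r / 2 + r / 2 * (x j * x j) := by funext x; ring
    rw [e, hG.ex_add (Poly.const _) (((Poly.coord j).mul (Poly.coord j)).const_mul _), hG.ex_const,
      ex_const_mul, h.ex_coord_mul, one_apply_eq]
    ring
  simp [this, mul_comm]

end Nz

/-- Gaussian integrals of the weight. -/
noncomputable def gint (n m : ℕ) (c : ℝ) : ℝ :=
  ∫ x : Fin n → ℝ, wt x ^ m * Real.exp (-(c * sumSq x))

lemma grow_sumSq {c : ℝ} (hc : 0 < c) : Grow fun x : Fin n → ℝ => c * sumSq x :=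
  ⟨continuous_const.mul continuous_sumSq, c, 0, hc, fun x => by simp⟩

lemma integrable_gint (m : ℕ) {c : ℝ} (hc : 0 < c) :
    Integrable fun x : Fin n → ℝ => wt x ^ m * Real.exp (-(c * sumSq x)) :=
  (grow_sumSq hc).integrable (poly_wt.pow m)

lemma gint_pos (n : ℕ) {c : ℝ} (hc : 0 < c) : 0 < gint n 0 c := by
  have := (grow_sumSq (n := n) hc).Zp_pos
  simpa [gint, Zp] using this

lemma gint_nonneg (n m : ℕ) (c : ℝ) : 0 ≤ gint n m c :=
  integral_nonneg fun x => mul_nonneg (pow_nonneg (by linarith [one_le_wt x]) m) (Real.exp_pos _).le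

/-- A common two-sided bound for normalised potentials. -/
lemma exists_unif_bound (n : ℕ) {r : ℝ} (hr : 1 ≤ r) :
    ∃ C : ℝ, 0 ≤ C ∧ ∀ U : (Fin n → ℝ) → ℝ, Nz U r → ∀ x,
      sumSq x / (4 * r) - C ≤ U x ∧ |U x| ≤ C * wt x := by
  have hr0 : 0 < r := by linarith
  set G : ℝ := ∑ _i : Fin n, (r * n) ^ 2 with hG
  have hG0 : 0 ≤ G := sum_nonneg fun _ _ => sq_nonneg _
  set J1 := gint n 0 ((r + 1) / 2)
  set J2 := gint n 0 (1 / (4 * r))
  have hJ1 : 0 < J1 := gint_pos n (by linarith)
  have hJ2 : 0 < J2 := gint_pos n (by positivity)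
  refine ⟨|Real.log J1| + |Real.log J2| + G + G * r + G * r + r + 1, by positivity,
    fun U h x => ?_⟩
  have hg : ∀ x : Fin n → ℝ, ∀ t : ℝ, 0 < t →
      |∑ i, x i * gr U 0 i| ≤ G / (2 * t) + t / 2 * sumSq x := fun x t ht => by
    refine (abs_sum_le_sum_abs _ _).trans ?_
    rw [hG, sum_div, sumSq, mul_sum, ← sum_add_distrib]
    refine sum_le_sum fun i _ => ?_
    rw [abs_mul, ← sub_nonneg]
    have h1 := h.abs_gr_zero_le i
    have h2 : |x i| * |gr U 0 i| ≤ |x i| * (r * n) := mul_le_mul_of_nonneg_left h1 (abs_nonneg _)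
    have h3 : (r * n) ^ 2 / (2 * t) + t / 2 * x i ^ 2 - |x i| * (r * n) =
        (r * n - t * |x i|) ^ 2 / (2 * t) := by
      field_simp; rw [← sq_abs (x i)]; ring
    linarith [div_nonneg (sq_nonneg (r * n - t * |x i|)) (by linarith : (0:ℝ) ≤ 2 * t)]
  have hlow : ∀ x, U 0 - G * r + sumSq x / (4 * r) ≤ U x := fun x => by
    have h1 := h.bd.quad_lower x
    have h2 := (abs_le.1 (hg x (1 / (2 * r)) (by positivity))).1
    have e : r⁻¹ / 2 * sumSq x - 1 / (2 * r) / 2 * sumSq x = sumSq x / (4 * r) := by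
      field_simp; ring
    have e2 : G / (2 * (1 / (2 * r))) = G * r := by field_simp
    linarith
  have hup : ∀ x, U x ≤ U 0 + G / 2 + (r + 1) / 2 * sumSq x := fun x => by
    have h1 := quad_upper h.bd 0 x
    simp only [sub_zero, Pi.zero_apply] at h1
    have h2 := (abs_le.1 (hg x 1 one_pos)).2
    linarith
  have hZ := h.mass
  have h0low : Real.log J1 - G / 2 ≤ U 0 := by
    have hle : Real.exp (-(U 0 + G / 2)) * J1 ≤ 1 := by
      rw [← hZ]
      simp only [J1, gint, pow_zero, one_mul, Zp, ← integral_const_mul, ← Real.exp_add]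
      refine integral_mono ?_ h.bd.grow.integrable_exp fun x => Real.exp_le_exp.2 ?_
      · simp only [Real.exp_add]
        exact (by simpa using integrable_gint (n := n) 0 (c := (r + 1) / 2) (by linarith)
          : Integrable fun x : Fin n → ℝ => Real.exp (-((r + 1) / 2 * sumSq x))).const_mul _
      · linarith [hup x]
    have := Real.log_le_log (mul_pos (Real.exp_pos _) hJ1) hle
    rw [Real.log_mul (Real.exp_pos _).ne' hJ1.ne', Real.log_exp, Real.log_one] at this
    linarith
  have h0up : U 0 ≤ Real.log J2 + G * r := by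
    have hle : 1 ≤ Real.exp (-(U 0 - G * r)) * J2 := by
      rw [← hZ]
      simp only [J2, gint, pow_zero, one_mul, Zp, ← integral_const_mul, ← Real.exp_add]
      refine integral_mono h.bd.grow.integrable_exp ?_ fun x => Real.exp_le_exp.2 ?_
      · simp only [Real.exp_add]
        exact (by simpa using integrable_gint (n := n) 0 (c := 1 / (4 * r)) (by positivity)
          : Integrable fun x : Fin n → ℝ => Real.exp (-(1 / (4 * r) * sumSq x))).const_mul _
      · linarith [hlow x, show 1 / (4 * r) * sumSq x = sumSq x / (4 * r) by ring]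
    have := Real.log_le_log one_pos hle
    rw [Real.log_mul (Real.exp_pos _).ne' hJ2.ne', Real.log_exp, Real.log_one] at this
    linarith
  have a1 := le_abs_self (Real.log J2)
  have a2 := neg_le_abs (Real.log J1)
  have hGr : 0 ≤ G * r := mul_nonneg hG0 hr0.le
  have hS := sumSq_nonneg x
  have hdiv : 0 ≤ sumSq x / (4 * r) := by positivity
  constructor
  · linarith [hlow x, abs_nonneg (Real.log J2)]
  · set C := |Real.log J1| + |Real.log J2| + G + G * r + G * r + r + 1
    have hC : (r + 1) / 2 * sumSq x ≤ C * sumSq x := by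
      refine mul_le_mul_of_nonneg_right ?_ hS
      linarith [abs_nonneg (Real.log J1), abs_nonneg (Real.log J2)]
    rw [wt, mul_add, mul_one, abs_le]
    constructor
    · have : 0 ≤ C * sumSq x := le_trans (mul_nonneg (by linarith) hS) hC
      linarith [hlow x, abs_nonneg (Real.log J2)]
    · linarith [hup x, abs_nonneg (Real.log J1)]

/-- The tilted integral `∫ g exp (t f) exp (-U)`. -/
noncomputable def tint (U g f : (Fin n → ℝ) → ℝ) (t : ℝ) : ℝ :=
  ∫ x, g x * Real.exp (t * f x) * Real.exp (-U x)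

lemma ex_sub_tilt (U g f : (Fin n → ℝ) → ℝ) (t : ℝ) :
    ex (fun x => U x - t * f x) g = tint U g f t / tint U (fun _ => 1) f t := by
  have e : ∀ x, Real.exp (-(U x - t * f x)) = Real.exp (t * f x) * Real.exp (-U x) := fun x => by
    rw [← Real.exp_add]; ring_nf
  simp only [ex, Zp, tint, e, one_mul, mul_assoc]

lemma Zp_sub_tilt (U f : (Fin n → ℝ) → ℝ) (t : ℝ) :
    Zp (fun x => U x - t * f x) = tint U (fun _ => 1) f t := by
  simp only [Zp, tint, one_mul, ← Real.exp_add]
  congr 1; funext x; ring_nf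

section

variable {U g f : (Fin n → ℝ) → ℝ} {r K C : ℝ} {m : ℕ}
  (hr : 1 ≤ r) (h : Nz U r) (hC : ∀ x, sumSq x / (4 * r) - C ≤ U x)
  (hg : Continuous g) (hgb : ∀ x, |g x| ≤ K * wt x ^ m)
  (hf : Continuous f) (hfb : ∀ x, |f x| ≤ wt x)
include hr h hC hg hgb hf hfb

lemma tint_expand {t : ℝ} (ht : |t| ≤ 1 / (8 * r)) :
    |tint U g f t - (ex U g + t * ex U (fun x => g x * f x) +
        t ^ 2 / 2 * ex U (fun x => g x * (f x * f x)))| ≤
      |t| ^ 3 * (K * Real.exp (C + 1) * gint n (m + 3) (1 / (8 * r))) := by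
  have hr0 : 0 < r := by linarith
  have hK : 0 ≤ K := by
    have := (abs_nonneg _).trans (hgb 0)
    exact nonneg_of_mul_nonneg_left this (pow_pos (zero_lt_one.trans_le (one_le_wt _)) m)
  have hgp : Poly g := ⟨hg, K, m, hgb⟩
  have hfp : Poly f := ⟨hf, 1, 1, fun x => by simpa [wt] using hfb x⟩
  have hGr := h.bd.grow
  have i0 := hGr.integrable hgp
  have i1 := hGr.integrable (hgp.mul hfp)
  have i2 := hGr.integrable (hgp.mul (hfp.mul hfp))
  set R : (Fin n → ℝ) → ℝ := fun x =>
    g x * (Real.exp (t * f x) - 1 - t * f x - (t * f x) ^ 2 / 2) * Real.exp (-U x)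
  set B : (Fin n → ℝ) → ℝ := fun x => |t| ^ 3 * (K * Real.exp (C + 1)) *
    (wt x ^ (m + 3) * Real.exp (-(1 / (8 * r) * sumSq x)))
  have hB : Integrable B := (integrable_gint (m + 3) (by positivity)).const_mul _
  have hle : ∀ x, ‖R x‖ ≤ B x := fun x => by
    have hw := one_le_wt x
    have h1 : |t * f x| ≤ |t| * wt x := by
      rw [abs_mul]; exact mul_le_mul_of_nonneg_left (hfb x) (abs_nonneg _)
    have h2 := exp_sub_two_le (t * f x)
    have h3 : |t * f x| ^ 3 ≤ |t| ^ 3 * wt x ^ 3 := by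
      rw [← mul_pow]; exact pow_le_pow_left₀ (abs_nonneg _) h1 3
    have h4 : Real.exp |t * f x| * Real.exp (-U x) ≤
        Real.exp (C + 1) * Real.exp (-(1 / (8 * r) * sumSq x)) := by
      rw [← Real.exp_add, ← Real.exp_add]
      refine Real.exp_le_exp.2 ?_
      have h5 : |t| * wt x ≤ 1 / (8 * r) * wt x := mul_le_mul_of_nonneg_right ht (by linarith)
      have h6 : 1 / (8 * r) ≤ 1 := by rw [div_le_one (by positivity)]; linarith
      have e : sumSq x / (4 * r) = 2 * (1 / (8 * r) * sumSq x) := by field_simp; ring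
      have e2 : 1 / (8 * r) * wt x = 1 / (8 * r) + 1 / (8 * r) * sumSq x := by rw [wt]; ring
      linarith [hC x]
    simp only [R, B, Real.norm_eq_abs, abs_mul, abs_of_pos (Real.exp_pos (-U x))]
    calc |g x| * |Real.exp (t * f x) - 1 - t * f x - (t * f x) ^ 2 / 2| * Real.exp (-U x)
        ≤ K * wt x ^ m * (|t * f x| ^ 3 * Real.exp |t * f x|) * Real.exp (-U x) :=
          mul_le_mul_of_nonneg_right (mul_le_mul (hgb x) h2 (abs_nonneg _)
            (mul_nonneg hK (pow_nonneg (by linarith) m))) (Real.exp_pos _).le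
      _ ≤ K * wt x ^ m * (|t| ^ 3 * wt x ^ 3) * (Real.exp |t * f x| * Real.exp (-U x)) := by
          rw [← mul_assoc, mul_assoc (K * wt x ^ m * |t * f x| ^ 3)]
          exact mul_le_mul_of_nonneg_right (mul_le_mul_of_nonneg_left h3
            (mul_nonneg hK (pow_nonneg (by linarith) m))) (by positivity)
      _ ≤ K * wt x ^ m * (|t| ^ 3 * wt x ^ 3) *
          (Real.exp (C + 1) * Real.exp (-(1 / (8 * r) * sumSq x))) :=
          mul_le_mul_of_nonneg_left h4 (by positivity)
      _ = _ := by ring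
  have hUc := h.bd.smooth.continuous
  have hRc : Continuous R := by simp only [R]; fun_prop
  have hRi : Integrable R := hB.mono' hRc.aestronglyMeasurable (Eventually.of_forall hle)
  have hsplit : (fun x => g x * Real.exp (t * f x) * Real.exp (-U x)) = fun x =>
      R x + (g x * Real.exp (-U x) + t * (g x * f x * Real.exp (-U x)) +
        t ^ 2 / 2 * (g x * (f x * f x) * Real.exp (-U x))) := by
    funext x; simp only [R]; ring
  have e : tint U g f t - (ex U g + t * ex U (fun x => g x * f x) +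
      t ^ 2 / 2 * ex U (fun x => g x * (f x * f x))) = ∫ x, R x := by
    have j1 := i1.const_mul t
    have j2 := i2.const_mul (t ^ 2 / 2)
    have j3 : Integrable fun x => g x * Real.exp (-U x) + t * (g x * f x * Real.exp (-U x)) :=
      i0.add j1
    have j4 : Integrable fun x => g x * Real.exp (-U x) + t * (g x * f x * Real.exp (-U x)) +
        t ^ 2 / 2 * (g x * (f x * f x) * Real.exp (-U x)) := j3.add j2
    rw [tint, hsplit, integral_add hRi j4, integral_add j3 j2, integral_add i0 j1,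
      integral_const_mul, integral_const_mul, h.ex_eq, h.ex_eq, h.ex_eq]
    ring
  rw [e, ← Real.norm_eq_abs]
  refine (norm_integral_le_of_norm_le hB (Eventually.of_forall hle)).trans (le_of_eq ?_)
  simp only [B, gint]
  rw [integral_const_mul]
  ring

omit hg hf hfb in
lemma abs_ex_le_unif : |ex U g| ≤ K * Real.exp C * gint n m (1 / (4 * r)) := by
  have hr0 : 0 < r := by linarith
  rw [h.ex_eq, ← Real.norm_eq_abs]
  refine (norm_integral_le_of_norm_le (g := fun x => K * Real.exp C *
    (wt x ^ m * Real.exp (-(1 / (4 * r) * sumSq x))))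
    ((integrable_gint m (by positivity)).const_mul _) (Eventually.of_forall fun x => ?_)).trans
    (le_of_eq (integral_const_mul _ _))
  rw [Real.norm_eq_abs, abs_mul, abs_of_pos (Real.exp_pos _)]
  calc |g x| * Real.exp (-U x) ≤ K * wt x ^ m * Real.exp (C + -(1 / (4 * r) * sumSq x)) := by
        refine mul_le_mul (hgb x) (Real.exp_le_exp.2 ?_) (Real.exp_pos _).le
          ((abs_nonneg _).trans (hgb x))
        have : 1 / (4 * r) * sumSq x = sumSq x / (4 * r) := by ring
        linarith [hC x]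
    _ = _ := by rw [Real.exp_add]; ring

end

/-- Jets of a tilted integral along a sequence of normalised potentials. -/
lemma jet_tint {ι : Type*} {l : Filter ι} {U g : ι → (Fin n → ℝ) → ℝ} {f : (Fin n → ℝ) → ℝ}
    {r K Cb : ℝ} {m : ℕ} {h : ι → ℝ} {A B C : ℝ} (hr : 1 ≤ r) (hU : ∀ j, Nz (U j) r)
    (hlow : ∀ j x, sumSq x / (4 * r) - Cb ≤ U j x)
    (hg : ∀ j, Continuous (g j)) (hgb : ∀ j x, |g j x| ≤ K * wt x ^ m)
    (hf : Continuous f) (hfb : ∀ x, |f x| ≤ wt x)
    (hh : Tendsto h l (𝓝 0)) (h0 : ∀ᶠ j in l, h j ≠ 0)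
    (hA : Tendsto (fun j => ex (U j) (g j)) l (𝓝 A))
    (hB : Tendsto (fun j => ex (U j) fun x => g j x * f x) l (𝓝 B))
    (hC : Tendsto (fun j => ex (U j) fun x => g j x * (f x * f x)) l (𝓝 C)) :
    Jet2 l h (fun j => tint (U j) (g j) f (h j)) (fun j => tint (U j) (g j) f (-h j))
      (fun j => tint (U j) (g j) f 0) A B C := by
  set M := K * Real.exp (Cb + 1) * gint n (m + 3) (1 / (8 * r))
  have hr0 : 0 < r := by linarith
  have hsmall : ∀ᶠ j in l, |h j| ≤ 1 / (8 * r) := by
    have := hh.abs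
    rw [abs_zero] at this
    exact this.eventually (eventually_le_nhds (by positivity))
  set E : ι → ℝ → ℝ := fun j t => tint (U j) (g j) f t - (ex (U j) (g j) +
    t * ex (U j) (fun x => g j x * f x) + t ^ 2 / 2 * ex (U j) (fun x => g j x * (f x * f x)))
  have hz : ∀ j, tint (U j) (g j) f 0 = ex (U j) (g j) := fun j => by
    simp [tint, (hU j).ex_eq]
  have hE : ∀ s : ℝ, |s| = 1 →
      Tendsto (fun j => E j (s * h j) / h j ^ 2) l (𝓝 0) := fun s hs => by
    have hb : Tendsto (fun j => |h j| * M) l (𝓝 0) := by simpa using hh.abs.mul_const M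
    refine squeeze_zero_norm' ?_ hb
    filter_upwards [hsmall, h0] with j hj hj0
    have ht : |s * h j| ≤ 1 / (8 * r) := by rwa [abs_mul, hs, one_mul]
    have := tint_expand hr (hU j) (hlow j) (hg j) (hgb j) hf hfb ht
    rw [Real.norm_eq_abs, abs_div, abs_pow, sq_abs, div_le_iff₀ (by positivity)]
    refine this.trans (le_of_eq ?_)
    rw [abs_mul, hs, one_mul, ← sq_abs (h j)]
    ring
  have one : ∀ s : ℝ, |s| = 1 →
      Tendsto (fun j => (tint (U j) (g j) f (s * h j) - tint (U j) (g j) f 0) / h j) l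
        (𝓝 (s * B)) := fun s hs => by
    have := ((hh.mul (hE s hs)).add (hB.const_mul s)).add
      ((hh.mul hC).const_mul (s ^ 2 / 2))
    simp only [mul_zero, zero_mul, zero_add, add_zero] at this
    refine this.congr' (h0.mono fun j hj => ?_)
    simp only [E, hz]
    field_simp
    ring
  refine ⟨⟨by simpa only [hz] using hA, by simpa using one 1 (by simp)⟩,
    ⟨by simpa only [hz] using hA, by simpa using one (-1) (by simp)⟩, ?_⟩
  have := ((hE 1 (by simp)).add (hE (-1) (by simp))).add hC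
  simp only [zero_add] at this
  refine this.congr' (h0.mono fun j hj => ?_)
  simp only [E, hz, one_mul, neg_one_mul]
  field_simp
  ring

end Vale.Agent.P254M.Gap
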