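import Vale.Agent.P254M.Gap.Perturb

/-!
Limits along an almost maximising sequence of normalised states.
-/

open MeasureTheory Set Filter Topology Finset Matrix
open Vale.Agent.P245 hiding cv
open scoped ContDiff

namespace Vale.Agent.P254M.Gap

variable {n : ℕ}

lemma exists_lim (u : Ultrafilter ℕ) {z : ℕ → ℝ} {C : ℝ} (h : ∀ j, |z j| ≤ C) :
    ∃ A, Tendsto z (↑u : Filter ℕ) (𝓝 A) := by
  obtain ⟨A, -, hA⟩ := (isCompact_Icc (a := -C) (b := C)).ultrafilter_le_nhds (u.map z) (by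
    rw [Ultrafilter.coe_map, le_principal_iff, Filter.mem_map]
    exact Eventually.of_forall fun j => abs_le.1 (h j))
  exact ⟨A, hA⟩

lemma Jet1.cast {l : Filter ℕ} {h p z : ℕ → ℝ} {A B A' B' : ℝ} (J : Jet1 l h p z A B)
    (eA : A = A') (eB : B = B') : Jet1 l h p z A' B' := eA ▸ eB ▸ J

lemma Jet2.cast {l : Filter ℕ} {h p m z : ℕ → ℝ} {A B C A' B' C' : ℝ}
    (J : Jet2 l h p m z A B C) (eA : A = A') (eB : B = B') (eC : C = C') :
    Jet2 l h p m z A' B' C' := eA ▸ eB ▸ eC ▸ J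

lemma wjet1 {l : Filter ℕ} {h p z w : ℕ → ℝ} {A B W : ℝ} (J : Jet1 l h p z A B)
    (hz : ∀ j, z j = A) (hw : Tendsto w l (𝓝 W)) :
    Tendsto (fun j => w j * (p j - A) / h j) l (𝓝 (W * B)) := by
  refine (hw.mul J.one).congr fun j => ?_
  rw [hz]; ring

lemma wjet2 {l : Filter ℕ} {h p m z w : ℕ → ℝ} {A B C W : ℝ} (J : Jet2 l h p m z A B C)
    (hz : ∀ j, z j = A) (hw : Tendsto w l (𝓝 W)) :
    Jet2 l h (fun j => w j * (p j - A)) (fun j => w j * (m j - A)) (fun _ => 0) 0
      (W * B) (W * C) := by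
  refine ⟨⟨tendsto_const_nhds, ?_⟩, ⟨tendsto_const_nhds, ?_⟩, ?_⟩
  · simpa using wjet1 J.plus hz hw
  · simpa using wjet1 J.minus hz hw
  · refine (hw.mul J.two).congr fun j => ?_
    rw [hz]; ring

/-- A sequence of normalised states. -/
structure Sq (n : ℕ) (r : ℝ) where
  V : ℕ → (Fin n → ℝ) → ℝ
  s : ℕ → Fin n → ℝ
  nz : ∀ j, Nz (V j) r
  dom : ∀ j, Dom r (V j) (diagonal (s j))
  s0 : ∀ j i, 0 ≤ s j i
  C : ℝ
  C0 : 0 ≤ C
  bound : ∀ j x, sumSq x / (4 * r) - C ≤ V j x ∧ |V j x| ≤ C * wt x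
  one_le : 1 ≤ r

namespace Sq

variable {r : ℝ} (S : Sq n r) (u : Ultrafilter ℕ)

lemma exists_ex_lim {g : ℕ → (Fin n → ℝ) → ℝ} {K : ℝ} {m : ℕ}
    (hb : ∀ j x, |g j x| ≤ K * wt x ^ m) :
    ∃ A, Tendsto (fun j => ex (S.V j) (g j)) (↑u : Filter ℕ) (𝓝 A) :=
  exists_lim u fun j => abs_ex_le_unif S.one_le (S.nz j) (fun x => (S.bound j x).1) (hb j)

lemma jet {f : (Fin n → ℝ) → ℝ} {κ : ℝ} (hf : Dir f κ) {g : ℕ → (Fin n → ℝ) → ℝ} {K : ℝ} {m : ℕ}
    (hg : ∀ j, Continuous (g j)) (hb : ∀ j x, |g j x| ≤ K * wt x ^ m) {h : ℕ → ℝ}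
    (hh : Tendsto h (↑u : Filter ℕ) (𝓝 0)) (h0 : ∀ᶠ j in (↑u : Filter ℕ), h j ≠ 0) {A B C : ℝ}
    (hA : Tendsto (fun j => ex (S.V j) (g j)) (↑u : Filter ℕ) (𝓝 A))
    (hB : Tendsto (fun j => ex (S.V j) fun x => g j x * f x) (↑u : Filter ℕ) (𝓝 B))
    (hC : Tendsto (fun j => ex (S.V j) fun x => g j x * (f x * f x)) (↑u : Filter ℕ) (𝓝 C)) :
    Jet2 (↑u : Filter ℕ) h (fun j => tint (S.V j) (g j) f (h j))
      (fun j => tint (S.V j) (g j) f (-h j)) (fun j => tint (S.V j) (g j) f 0) A B C :=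
  jet_tint S.one_le S.nz (fun j x => (S.bound j x).1) hg hb hf.smooth.continuous hf.le_wt hh h0
    hA hB hC

/-- Limits of all moments entering the computation. -/
structure Lims where
  σ : Fin n → ℝ
  T : Fin n → Fin n → Fin n → ℝ
  K : Fin n → Fin n → Fin n → ℝ
  E0 : ℝ
  X : Fin n → ℝ
  W : Fin n → ℝ
  hσ : ∀ i, Tendsto (fun j => S.s j i) (↑u : Filter ℕ) (𝓝 (σ i))
  hT : ∀ a b c, Tendsto (fun j => ex (S.V j) fun x => x a * x b * x c) (↑u : Filter ℕ)
    (𝓝 (T a b c))
  hK : ∀ a b c, Tendsto (fun j => ex (S.V j) fun x => x a * x b * (x c * x c)) (↑u : Filter ℕ)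
    (𝓝 (K a b c))
  hE : Tendsto (fun j => ex (S.V j) (S.V j)) (↑u : Filter ℕ) (𝓝 E0)
  hX : ∀ c, Tendsto (fun j => ex (S.V j) fun x => S.V j x * x c) (↑u : Filter ℕ) (𝓝 (X c))
  hW : ∀ c, Tendsto (fun j => ex (S.V j) fun x => S.V j x * (x c * x c)) (↑u : Filter ℕ)
    (𝓝 (W c))

lemma exists_lims (hs1 : ∀ j i, S.s j i ≤ 1) : Nonempty (S.Lims u) := by
  choose σ hσ using fun i => exists_lim u (z := fun j => S.s j i) (C := 1) fun j =>
    abs_le.2 ⟨by linarith [S.s0 j i], hs1 j i⟩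
  choose T hT using fun a b c => S.exists_ex_lim u (g := fun _ x => x a * x b * x c) (K := 1)
    (m := 3) fun _ x => by
      rw [one_mul, abs_mul, abs_mul, pow_succ, pow_two]
      have := one_le_wt x
      gcongr <;> exact abs_coord_le x _
  choose K hK using fun a b c => S.exists_ex_lim u (g := fun _ x => x a * x b * (x c * x c))
    (K := 1) (m := 4) fun _ x => by
      rw [one_mul, abs_mul, abs_mul, abs_mul, show wt x ^ 4 = wt x * wt x * (wt x * wt x) by ring]
      have := one_le_wt x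
      gcongr <;> exact abs_coord_le x _
  obtain ⟨E0, hE⟩ := S.exists_ex_lim u (g := S.V) (K := S.C) (m := 1) fun j x => by
    simpa using (S.bound j x).2
  choose X hX using fun c => S.exists_ex_lim u (g := fun j x => S.V j x * x c) (K := S.C) (m := 2)
    fun j x => by
      rw [abs_mul, pow_two, ← mul_assoc]
      exact mul_le_mul (S.bound j x).2 (abs_coord_le x c) (abs_nonneg _)
        (mul_nonneg S.C0 (zero_le_one.trans (one_le_wt x)))
  choose W hW using fun c => S.exists_ex_lim u (g := fun j x => S.V j x * (x c * x c)) (K := S.C)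
    (m := 3) fun j x => by
      rw [abs_mul, abs_mul, show S.C * wt x ^ 3 = S.C * wt x * (wt x * wt x) by ring]
      have h1 := abs_coord_le x c
      exact mul_le_mul (S.bound j x).2
        (mul_le_mul h1 h1 (abs_nonneg _) (zero_le_one.trans (one_le_wt x)))
        (mul_nonneg (abs_nonneg _) (abs_nonneg _))
        (mul_nonneg S.C0 (zero_le_one.trans (one_le_wt x)))
  exact ⟨⟨σ, T, K, E0, X, W, hσ, hT, hK, hE, hX, hW⟩⟩

variable {S u} (L : S.Lims u)

/-- The weight attached to a curvature. -/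
noncomputable def rho (v : ℝ) : ℝ := 2 * v / (1 + 2 * v)

lemma tendsto_rho {z : ℕ → ℝ} {A : ℝ} {l : Filter ℕ} (hA : 0 ≤ A) (h : Tendsto z l (𝓝 A)) :
    Tendsto (fun j => rho (z j)) l (𝓝 (rho A)) :=
  (h.const_mul 2).div ((h.const_mul 2).const_add 1) (by linarith)

lemma rho_nonneg {v : ℝ} (hv : 0 ≤ v) : 0 ≤ rho v := by unfold rho; positivity

lemma σ_nonneg (i : Fin n) : 0 ≤ L.σ i := ge_of_tendsto' (L.hσ i) fun j => S.s0 j i

lemma ex_mul_fq (j : ℕ) {g : (Fin n → ℝ) → ℝ} (hg : Poly g) :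
    ex (S.V j) (fun x => g x * fq x) = -(1 / 2) * ∑ c, ex (S.V j) fun x => g x * (x c * x c) := by
  have e : (fun x => g x * fq x) = fun x => -(1 / 2) * ∑ c, g x * (x c * x c) := by
    funext x
    simp only [fq, qpot, sumSq, ← mul_sum, pow_two]
    ring
  rw [e, ex_const_mul,
    (S.nz j).bd.grow.ex_sum _ fun c _ => hg.mul ((Poly.coord c).mul (Poly.coord c))]

section Linear

variable (l : Fin n) {h : ℕ → ℝ} (hh : Tendsto h (↑u : Filter ℕ) (𝓝 0))
  (h0 : ∀ᶠ j in (↑u : Filter ℕ), h j ≠ 0)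
include L hh h0

lemma jet_Zinv :
    Jet2 (↑u : Filter ℕ) h (fun j => (tint (S.V j) (fun _ => 1) (fun x => x l) (h j))⁻¹)
      (fun j => (tint (S.V j) (fun _ => 1) (fun x => x l) (-h j))⁻¹)
      (fun j => (tint (S.V j) (fun _ => 1) (fun x => x l) 0)⁻¹) 1 0 (-1) := by
  have J := S.jet u (dir_coord l) (g := fun _ _ => 1) (K := 1) (m := 0) (A := 1) (B := 0) (C := 1)
    (fun _ => continuous_const) (fun _ x => by simp) hh h0
    (tendsto_const_nhds.congr fun j => ((S.nz j).bd.grow.ex_const 1).symm)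
    (tendsto_const_nhds.congr fun j => by simp [(S.nz j).ex_coord])
    (tendsto_const_nhds.congr fun j => by simp [(S.nz j).ex_coord_mul])
  simpa using J.inv one_ne_zero hh h0

lemma jet_coord (i : Fin n) :
    Jet2 (↑u : Filter ℕ) h (fun j => tint (S.V j) (fun x => x i) (fun x => x l) (h j))
      (fun j => tint (S.V j) (fun x => x i) (fun x => x l) (-h j))
      (fun j => tint (S.V j) (fun x => x i) (fun x => x l) 0)
      0 ((1 : Matrix (Fin n) (Fin n) ℝ) i l) (L.T i l l) :=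
  S.jet u (dir_coord l) (g := fun _ x => x i) (K := 1) (m := 1) (fun _ => continuous_apply i)
    (fun _ x => by simpa using abs_coord_le x i) hh h0
    (tendsto_const_nhds.congr fun j => ((S.nz j).ex_coord i).symm)
    (tendsto_const_nhds.congr fun j => ((S.nz j).ex_coord_mul i l).symm)
    ((L.hT i l l).congr fun j => by simp only [mul_assoc])

lemma jet_covt (a b : Fin n) :
    Jet2 (↑u : Filter ℕ) h (fun j => covt (S.V j) (fun x => x l) (h j) a b)
      (fun j => covt (S.V j) (fun x => x l) (-h j) a b)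
      (fun j => covt (S.V j) (fun x => x l) 0 a b)
      ((1 : Matrix (Fin n) (Fin n) ℝ) a b) (L.T a b l)
      (L.K a b l - (1 : Matrix (Fin n) (Fin n) ℝ) a b
        - 2 * ((1 : Matrix (Fin n) (Fin n) ℝ) a l * (1 : Matrix (Fin n) (Fin n) ℝ) b l)) := by
  have J2 := S.jet u (dir_coord l) (g := fun _ x => x a * x b) (K := 1) (m := 2)
    (fun _ => (continuous_apply a).mul (continuous_apply b))
    (fun _ x => by
      rw [one_mul, abs_mul, pow_two]
      exact mul_le_mul (abs_coord_le x a) (abs_coord_le x b) (abs_nonneg _)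
        (zero_le_one.trans (one_le_wt x)))
    hh h0 (tendsto_const_nhds.congr fun j => ((S.nz j).ex_coord_mul a b).symm) (L.hT a b l)
    (L.hK a b l)
  have Z := jet_Zinv L l hh h0
  have := (J2.mul Z hh h0).sub
    (((jet_coord L l hh h0 a).mul Z hh h0).mul ((jet_coord L l hh h0 b).mul Z hh h0) hh h0)
  exact this.cast (by ring) (by ring) (by ring)

lemma jet_entt :
    Jet2 (↑u : Filter ℕ) h (fun j => entt (S.V j) (fun x => x l) (h j))
      (fun j => entt (S.V j) (fun x => x l) (-h j))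
      (fun j => entt (S.V j) (fun x => x l) 0) L.E0 (L.X l) (L.W l - L.E0 - 1) := by
  have JV := S.jet u (dir_coord l) (g := S.V) (K := S.C) (m := 1)
    (fun j => (S.nz j).bd.smooth.continuous) (fun j x => by simpa using (S.bound j x).2) hh h0
    L.hE (L.hX l) (L.hW l)
  have Z := jet_Zinv L l hh h0
  have J1 := S.jet u (dir_coord l) (g := fun _ _ => 1) (K := 1) (m := 0) (A := 1) (B := 0) (C := 1)
    (fun _ => continuous_const) (fun _ x => by simp) hh h0
    (tendsto_const_nhds.congr fun j => ((S.nz j).bd.grow.ex_const 1).symm)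
    (tendsto_const_nhds.congr fun j => by simp [(S.nz j).ex_coord])
    (tendsto_const_nhds.congr fun j => by simp [(S.nz j).ex_coord_mul])
  have := ((JV.mul Z hh h0).sub (((jet_coord L l hh h0 l).mul Z hh h0).step hh h0)).add
    (J1.log one_pos hh h0)
  simp only [entt, zero_mul, neg_mul]
  exact this.cast (by simp) (by simp) (by simp [one_apply_eq]; ring)

end Linear

section Quadratic

variable {h : ℕ → ℝ} (hh : Tendsto h (↑u : Filter ℕ) (𝓝 0))
  (h0 : ∀ᶠ j in (↑u : Filter ℕ), h j ≠ 0)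
include L hh h0

lemma jetq_Z :
    Jet1 (↑u : Filter ℕ) h (fun j => tint (S.V j) (fun _ => 1) fq (h j))
      (fun j => tint (S.V j) (fun _ => 1) fq 0) 1 (-(n / 2)) := by
  obtain ⟨C, hC⟩ := S.exists_ex_lim u (g := fun _ x => 1 * (fq x * fq x)) (K := 1) (m := 2)
    fun _ x => by
      rw [one_mul, one_mul, abs_mul, pow_two]
      exact mul_le_mul (dir_fq.le_wt x) (dir_fq.le_wt x) (abs_nonneg _)
        (zero_le_one.trans (one_le_wt x))
  exact (S.jet u dir_fq (g := fun _ _ => 1) (K := 1) (m := 0) (fun _ => continuous_const)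
    (fun _ x => by simp) hh h0
    (tendsto_const_nhds.congr fun j => ((S.nz j).bd.grow.ex_const 1).symm)
    (tendsto_const_nhds.congr fun j => by
      rw [ex_mul_fq j (Poly.const 1)]
      simp [(S.nz j).ex_coord_mul]
      ring) hC).plus

lemma jetq_coord (i : Fin n) :
    Jet1 (↑u : Filter ℕ) h (fun j => tint (S.V j) (fun x => x i) fq (h j))
      (fun j => tint (S.V j) (fun x => x i) fq 0) 0 (-(1 / 2) * ∑ c, L.T i c c) := by
  obtain ⟨C, hC⟩ := S.exists_ex_lim u (g := fun _ x => x i * (fq x * fq x)) (K := 1) (m := 3)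
    fun _ x => by
      rw [one_mul, abs_mul, abs_mul, show wt x ^ 3 = wt x * (wt x * wt x) by ring]
      have := one_le_wt x
      gcongr
      · exact abs_coord_le x i
      · exact dir_fq.le_wt x
      · exact dir_fq.le_wt x
  refine (S.jet u dir_fq (g := fun _ x => x i) (K := 1) (m := 1) (fun _ => continuous_apply i)
    (fun _ x => by simpa using abs_coord_le x i) hh h0
    (tendsto_const_nhds.congr fun j => ((S.nz j).ex_coord i).symm) ?_ hC).plus
  refine ((tendsto_finsetSum (s := Finset.univ) fun c _ => L.hT i c c).const_mul _).congr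
    fun j => ?_
  rw [ex_mul_fq j (Poly.coord i)]
  simp only [mul_assoc]

lemma jetq_covt (a b : Fin n) :
    Jet1 (↑u : Filter ℕ) h (fun j => covt (S.V j) fq (h j) a b)
      (fun j => covt (S.V j) fq 0 a b) ((1 : Matrix (Fin n) (Fin n) ℝ) a b)
      (-(1 / 2) * (∑ c, L.K a b c) + n / 2 * (1 : Matrix (Fin n) (Fin n) ℝ) a b) := by
  obtain ⟨C, hC⟩ := S.exists_ex_lim u (g := fun _ x => x a * x b * (fq x * fq x)) (K := 1) (m := 4)
    fun _ x => by
      rw [one_mul, abs_mul, abs_mul, abs_mul,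
        show wt x ^ 4 = wt x * wt x * (wt x * wt x) by ring]
      have := one_le_wt x
      gcongr
      · exact abs_coord_le x a
      · exact abs_coord_le x b
      · exact dir_fq.le_wt x
      · exact dir_fq.le_wt x
  have hB : Tendsto (fun j => ex (S.V j) fun x => x a * x b * fq x) (↑u : Filter ℕ)
      (𝓝 (-(1 / 2) * ∑ c, L.K a b c)) :=
    ((tendsto_finsetSum (s := Finset.univ) fun c _ => L.hK a b c).const_mul _).congr fun j =>
      (ex_mul_fq j ((Poly.coord a).mul (Poly.coord b))).symm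
  have J2 := (S.jet u dir_fq (g := fun _ x => x a * x b) (K := 1) (m := 2)
    (fun _ => (continuous_apply a).mul (continuous_apply b))
    (fun _ x => by
      rw [one_mul, abs_mul, pow_two]
      exact mul_le_mul (abs_coord_le x a) (abs_coord_le x b) (abs_nonneg _)
        (zero_le_one.trans (one_le_wt x)))
    hh h0 (tendsto_const_nhds.congr fun j => ((S.nz j).ex_coord_mul a b).symm) hB hC).plus
  have Z := (jetq_Z L hh h0).inv one_ne_zero hh h0
  have := (J2.mul Z hh h0).sub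
    (((jetq_coord L hh h0 a).mul Z hh h0).mul ((jetq_coord L hh h0 b).mul Z hh h0) hh h0)
  exact this.cast (by simp) (by simp; ring)

lemma jetq_entt :
    Jet1 (↑u : Filter ℕ) h (fun j => entt (S.V j) fq (h j)) (fun j => entt (S.V j) fq 0)
      L.E0 (-(1 / 2) * (∑ c, L.W c) + n / 2 * L.E0) := by
  obtain ⟨C, hC⟩ := S.exists_ex_lim u (g := fun j x => S.V j x * (fq x * fq x)) (K := S.C) (m := 3)
    fun j x => by
      rw [abs_mul, abs_mul, show S.C * wt x ^ 3 = S.C * wt x * (wt x * wt x) by ring]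
      exact mul_le_mul (S.bound j x).2
        (mul_le_mul (dir_fq.le_wt x) (dir_fq.le_wt x) (abs_nonneg _)
          (zero_le_one.trans (one_le_wt x)))
        (mul_nonneg (abs_nonneg _) (abs_nonneg _))
        (mul_nonneg S.C0 (zero_le_one.trans (one_le_wt x)))
  have hB : Tendsto (fun j => ex (S.V j) fun x => S.V j x * fq x) (↑u : Filter ℕ)
      (𝓝 (-(1 / 2) * ∑ c, L.W c)) :=
    ((tendsto_finsetSum (s := Finset.univ) fun c _ => L.hW c).const_mul _).congr fun j =>
      (ex_mul_fq j (poly_potential (S.nz j).bd)).symm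
  have JV := (S.jet u dir_fq (g := S.V) (K := S.C) (m := 1)
    (fun j => (S.nz j).bd.smooth.continuous) (fun j x => by simpa using (S.bound j x).2) hh h0
    L.hE hB hC).plus
  obtain ⟨C1, hC1⟩ := S.exists_ex_lim u (g := fun _ x => fq x * fq x) (K := 1) (m := 2)
    fun _ x => by
      rw [one_mul, abs_mul, pow_two]
      exact mul_le_mul (dir_fq.le_wt x) (dir_fq.le_wt x) (abs_nonneg _)
        (zero_le_one.trans (one_le_wt x))
  obtain ⟨C2, hC2⟩ := S.exists_ex_lim u (g := fun _ x => fq x * (fq x * fq x)) (K := 1) (m := 3)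
    fun _ x => by
      rw [one_mul, abs_mul, abs_mul, show wt x ^ 3 = wt x * (wt x * wt x) by ring]
      have := one_le_wt x
      gcongr <;> exact dir_fq.le_wt x
  have hA : Tendsto (fun j => ex (S.V j) fq) (↑u : Filter ℕ) (𝓝 (-(n / 2))) := by
    refine tendsto_const_nhds.congr fun j => ?_
    have h1 := ex_mul_fq (S := S) j (g := fun _ => (1:ℝ)) (Poly.const 1)
    simp only [one_mul] at h1
    rw [h1]
    simp [(S.nz j).ex_coord_mul]
    ring
  have JF := (S.jet u dir_fq (g := fun _ => fq) (K := 1) (m := 1)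
    (fun _ => dir_fq.smooth.continuous) (fun _ x => by simpa using dir_fq.le_wt x) hh h0
    hA hC1 hC2).plus
  have Z1 := jetq_Z L hh h0
  have Z := Z1.inv one_ne_zero hh h0
  have := ((JV.mul Z hh h0).sub
    (Jet1.step ((JF.mul Z hh h0).value hh h0) h0)).add (Z1.log one_pos hh h0)
  simp only [entt, zero_mul]
  exact this.cast (by simp) (by simp; ring)

end Quadratic

end Sq

end Vale.Agent.P254M.Gap
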