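import Vale.Agent.P254M.Gap.Second

/-!
The entropy gap is at most `1/5 + (2/5) log 3` per dimension, given the skew moment inequality:
a maximum principle on normalised states.
-/

open MeasureTheory Set Filter Topology Finset Matrix
open Vale.Agent.P245 hiding cv
open scoped ContDiff

namespace Vale.Agent.P254M.Gap

variable {n : ℕ} {r e : ℝ}

namespace Sq

variable {S : Sq n r} {u : Ultrafilter ℕ} (L : S.Lims u) {h η : ℕ → ℝ}

lemma drift_limit (hS : SkewMoment) :
    ∑ a, ∑ b, ∑ c, (1 / 4 + 1 / 5 * rho (L.σ a) * rho (L.σ b)) * L.T a b c ^ 2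
      ≤ ∑ a, (1 / 5 + 4 / 5 / (1 + 2 * L.σ a)) * (1 - L.σ a) := by
  have hT : ∀ a b c, Tendsto (fun j => tens (S.V j) a b c) (↑u : Filter ℕ) (𝓝 (L.T a b c)) :=
    fun a b c => (L.hT a b c).congr fun j => by simp [tens, (S.nz j).mean]
  have hr := fun a => tendsto_rho (σ_nonneg L a) (L.hσ a)
  refine le_of_tendsto_of_tendsto'
    (tendsto_finsetSum _ fun a _ => tendsto_finsetSum _ fun b _ => tendsto_finsetSum _ fun c _ =>
      ((((hr a).const_mul (1 / 5)).mul (hr b)).const_add (1 / 4)).mul ((hT a b c).pow 2))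
    (tendsto_finsetSum _ fun a _ => (((tendsto_const_nhds (x := (4:ℝ) / 5)).div
        (((L.hσ a).const_mul 2).const_add 1)
        (by linarith [σ_nonneg L a] : 1 + 2 * L.σ a ≠ 0)).const_add (1 / 5)).mul
      ((L.hσ a).const_sub 1)) fun j => ?_
  exact drift_le hS (S.nz j).bd (S.nz j).mean (S.nz j).cov (S.s0 j) fun x v => by
    simpa [quad_diagonal] using (S.dom j).le_hs x v

/-- At the limit of almost maximising states the curvature is one. -/
lemma curvature_tendsto_one (hS : SkewMoment) (he : 0 < e)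
    (hh : Tendsto h (↑u : Filter ℕ) (𝓝 0)) (hpos : ∀ j, 0 < h j)
    (h1 : Tendsto (fun j => η j / h j) (↑u : Filter ℕ) (𝓝 0))
    (h2 : Tendsto (fun j => η j / h j ^ 2) (↑u : Filter ℕ) (𝓝 0))
    (hlin : ∀ j l t, fgap e (fun x => S.V j x - t * x l) (diagonal (S.s j))
      ≤ fgap e (S.V j) (diagonal (S.s j)) + η j)
    (hquad : ∀ j t, 0 ≤ t → fgap e (fun x => S.V j x - t * fq x)
      (diagonal fun i => S.s j i + t) ≤ fgap e (S.V j) (diagonal (S.s j)) + η j)
    (hσ1 : ∀ a, L.σ a ≤ 1) : ∀ a, L.σ a = 1 := by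
  have cl := sum_nonpos (s := (Finset.univ : Finset (Fin n))) fun l _ =>
    cond_linear L e hh hpos l (fun j t => hlin j l t) h2
  have cq := cond_quadratic L e hh hpos hquad h1
  have hd := drift_limit L hS
  have e1 : ∀ w : Fin n → ℝ,
      1 / 2 * (∑ l, ∑ a, w a * (L.K a a l - 1 - 2 * (if a = l then 1 else 0)))
        + ∑ a, w a * (-(1 / 2) * (∑ c, L.K a a c) + n / 2) = -∑ a, w a := by
    intro w
    rw [sum_comm, mul_sum, ← sum_add_distrib, ← sum_neg_distrib]
    refine sum_congr rfl fun a _ => ?_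
    have e2 : ∑ l, (L.K a a l - 1 - 2 * (if a = l then 1 else 0)) =
        (∑ l, L.K a a l) - n - 2 := by
      simp [sum_sub_distrib]
    rw [← mul_sum, e2]
    ring
  have eA := e1 fun _ => 1
  have eR := e1 fun a => rho (L.σ a)
  have eS := e1 L.σ
  simp only [one_mul, sum_const, card_univ, Fintype.card_fin, nsmul_eq_mul, mul_one] at eA
  have eT : ∀ F : Fin n → Fin n → Fin n → ℝ,
      ∑ l, ∑ a, ∑ b, F a b l = ∑ a, ∑ b, ∑ l, F a b l := fun F => by
    rw [sum_comm]
    exact sum_congr rfl fun a _ => sum_comm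
  have eD : ∑ a, ∑ b, ∑ c, (1 / 4 + 1 / 5 * rho (L.σ a) * rho (L.σ b)) * L.T a b c ^ 2 =
      1 / 4 * (∑ a, ∑ b, ∑ c, L.T a b c ^ 2)
        + 1 / 5 * ∑ a, ∑ b, ∑ c, rho (L.σ a) * rho (L.σ b) * L.T a b c ^ 2 := by
    simp only [mul_sum, ← sum_add_distrib]
    exact sum_congr rfl fun a _ => sum_congr rfl fun b _ => sum_congr rfl fun c _ => by ring
  have eW : ∑ l, (L.W l - L.E0 - 1) = (∑ l, L.W l) - n * L.E0 - n := by
    simp [sum_sub_distrib]
  have eB : ∑ a, (L.σ a * (-(1 / 2) * (∑ c, L.K a a c) + n / 2) + 1) =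
      (∑ a, L.σ a * (-(1 / 2) * (∑ c, L.K a a c) + n / 2)) + n := by
    simp [sum_add_distrib]
  have esplit : ∀ f g p q m k : Fin n → ℝ,
      ∑ l, (1 / 2 * (f l - g l) - p l + 2 / 5 * (q l - m l) + (1 / 5 + e) * k l) =
        1 / 2 * ((∑ l, f l) - ∑ l, g l) - (∑ l, p l) + 2 / 5 * ((∑ l, q l) - ∑ l, m l)
          + (1 / 5 + e) * ∑ l, k l := fun f g p q m k => by
    simp only [sum_add_distrib, sum_sub_distrib, ← mul_sum]
  rw [esplit, eW, eT fun a b l => L.T a b l ^ 2,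
    eT fun a b l => rho (L.σ a) * rho (L.σ b) * L.T a b l ^ 2] at cl
  rw [eB] at cq
  have eF : ∑ a, (1 / 5 + 4 / 5 / (1 + 2 * L.σ a)) * (1 - L.σ a) =
      2 / 5 * (∑ a, 2 / (1 + 2 * L.σ a)) - 2 / 5 * (∑ a, rho (L.σ a))
        + 1 / 5 * (n - ∑ a, L.σ a) := by
    rw [show (n : ℝ) = ∑ _a : Fin n, (1:ℝ) by simp, ← sum_sub_distrib, mul_sum, mul_sum, mul_sum,
      ← sum_sub_distrib, ← sum_add_distrib]
    refine sum_congr rfl fun a _ => ?_
    have : 1 + 2 * L.σ a ≠ 0 := by linarith [σ_nonneg L a]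
    simp only [rho]
    field_simp
    ring
  rw [eD, eF] at hd
  have hle : e * (n - ∑ a, L.σ a) ≤ 0 := by nlinarith
  have hsum : ∑ a, (1 - L.σ a) = 0 := by
    refine le_antisymm ?_ (sum_nonneg fun a _ => sub_nonneg.2 (hσ1 a))
    simp only [sum_sub_distrib, sum_const, card_univ, Fintype.card_fin, nsmul_eq_mul, mul_one]
    exact nonpos_of_mul_nonpos_right hle he
  intro a
  linarith [(sum_eq_zero_iff_of_nonneg fun a _ => sub_nonneg.2 (hσ1 a)).1 hsum a (mem_univ a)]

end Sq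

variable (hS : SkewMoment)
include hS

lemma fgap_le_gdef {V : (Fin n → ℝ) → ℝ} {s : Fin n → ℝ} (hV : Nz V r)
    (hD : Dom r V (diagonal s)) (he : 0 ≤ e) (hs0 : ∀ i, 0 ≤ s i) :
    (∀ i, s i ≤ 1) ∧ fgap e V (diagonal s) ≤ gdef V := by
  have hs1 := curvature_le_one hS hV.bd hV.mean hV.cov hs0 fun x v => by
    simpa [quad_diagonal] using hD.le_hs x v
  refine ⟨hs1, ?_⟩
  have hdet : (1 + (2:ℝ) • diagonal s).det = ∏ i, (1 + 2 * s i) := by
    rw [← det_diagonal]
    congr 1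
    ext i j
    by_cases h : i = j <;> simp [h]
  rw [fgap, hV.cov, Matrix.mul_one, hdet, Real.log_prod fun i _ => by linarith [hs0 i],
    Matrix.trace_diagonal]
  have h1 : ∑ i, Real.log (1 + 2 * s i) ≤ n * Real.log 3 := by
    refine (sum_le_sum fun i _ => Real.log_le_log (by linarith [hs0 i])
      (by linarith [hs1 i] : 1 + 2 * s i ≤ 3)).trans (le_of_eq ?_)
    simp
  have h2 : ∑ i, s i ≤ n := (sum_le_sum fun i _ => hs1 i).trans (le_of_eq (by simp))
  have h3 : (1 / 5 + e) * ∑ i, s i ≤ (1 / 5 + e) * n :=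
    mul_le_mul_of_nonneg_left h2 (by linarith)
  linarith

/-- The gap is nonpositive on all admissible states. -/
theorem fgap_nonpos (he : 0 < e) {U : (Fin n → ℝ) → ℝ} {L : Matrix (Fin n) (Fin n) ℝ}
    (hU : Dom r U L) : fgap e U L ≤ 0 := by
  set A : Set ℝ := {x | ∃ W M, Dom (n := n) r W M ∧ x = fgap e W M}
  obtain ⟨C, hC0, hC⟩ := exists_unif_bound n hU.one_le
  have hne : A.Nonempty := ⟨_, U, L, hU, rfl⟩
  have hbdd : BddAbove A := by
    refine ⟨(n : ℝ) / 2 * Real.log (2 * Real.pi * Real.exp 1) + C, ?_⟩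
    rintro x ⟨W, M, hW, rfl⟩
    obtain ⟨V, s, hV, hD, hs0, heq⟩ := exists_normal hS (e := e) hW
    rw [← heq]
    refine (fgap_le_gdef hS hV hD he.le hs0).2.trans ?_
    rw [hV.gdef_eq]
    have : -C ≤ ex V V := by
      rw [← hV.bd.grow.ex_const (-C)]
      refine hV.bd.grow.ex_mono (Poly.const _) (poly_potential hV.bd) fun x => ?_
      have := (hC V hV x).1
      have h0 : 0 ≤ sumSq x / (4 * r) := by
        have := hV.r_pos
        have := sumSq_nonneg x
        positivity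
      linarith
    linarith
  refine (le_csSup hbdd ⟨U, L, hU, rfl⟩).trans ?_
  set M := sSup A
  set h : ℕ → ℝ := fun j => 1 / ((j : ℝ) + 1)
  have hpos : ∀ j, 0 < h j := fun j => Nat.one_div_pos_of_nat
  have hex : ∀ j : ℕ, ∃ V s, Nz (n := n) V r ∧ Dom r V (diagonal s) ∧ (∀ i, 0 ≤ s i) ∧
      M - h j ^ 3 ≤ fgap e V (diagonal s) := fun j => by
    obtain ⟨x, ⟨W, N, hW, rfl⟩, hlt⟩ := exists_lt_of_lt_csSup hne
      (sub_lt_self M (pow_pos (hpos j) 3))
    obtain ⟨V, s, hV, hD, hs0, heq⟩ := exists_normal hS (e := e) hW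
    exact ⟨V, s, hV, hD, hs0, heq ▸ hlt.le⟩
  choose V s hV hD hs0 hM using hex
  set S : Sq n r := ⟨V, s, hV, hD, hs0, C, hC0, fun j x => hC (V j) (hV j) x, hU.one_le⟩
  set u : Ultrafilter ℕ := hyperfilter ℕ
  have hu : (↑u : Filter ℕ) ≤ atTop := Nat.hyperfilter_le_atTop
  have hh : Tendsto h (↑u : Filter ℕ) (𝓝 0) :=
    (tendsto_one_div_add_atTop_nhds_zero_nat (𝕜 := ℝ)).mono_left hu
  have hmax : ∀ j W N, Dom r W N → fgap e W N ≤ fgap e (V j) (diagonal (s j)) + h j ^ 3 :=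
    fun j W N hW => by linarith [hM j, le_csSup hbdd ⟨W, N, hW, rfl⟩]
  have hlin : ∀ j l t, fgap e (fun x => V j x - t * x l) (diagonal (s j))
      ≤ fgap e (V j) (diagonal (s j)) + h j ^ 3 := fun j l t => hmax j _ _ (by
    simpa using dom_pert (hV j) (hD j) (dir_coord l) (t := t) (by simp))
  have hquad : ∀ j t, 0 ≤ t → fgap e (fun x => V j x - t * fq x)
      (diagonal fun i => s j i + t) ≤ fgap e (V j) (diagonal (s j)) + h j ^ 3 := fun j t ht =>
    hmax j _ _ (by simpa using dom_pert (hV j) (hD j) dir_fq (t := t) (by simpa using ht))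
  have hs1 := fun j => (fgap_le_gdef hS (hV j) (hD j) he.le (hs0 j)).1
  obtain ⟨Λ⟩ := Sq.exists_lims S u hs1
  have hσ := Sq.curvature_tendsto_one (η := fun j => h j ^ 3) Λ hS he hh hpos
    (by
      refine ((hh.pow 2).congr fun j => ?_).trans (le_of_eq (by norm_num))
      field_simp [(hpos j).ne'])
    (by
      refine hh.congr fun j => ?_
      field_simp [(hpos j).ne'])
    hlin hquad fun a => le_of_tendsto' (Λ.hσ a) fun j => hs1 j a
  set a : ℕ → ℝ := fun j => 1 - ∑ i, (1 - s j i)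
  have ha : Tendsto a (↑u : Filter ℕ) (𝓝 1) := by
    have := (tendsto_finsetSum (s := Finset.univ) fun i _ => (Λ.hσ i).const_sub 1).const_sub 1
    convert this using 2
    simp [hσ]
  refine le_of_forall_pos_le_add fun δ hδ => ?_
  rw [zero_add]
  set R : ℝ := r * n * n / (δ / 2) + 1
  have hr : 0 < r := zero_lt_one.trans_le hU.one_le
  have hR : 0 < R := by positivity
  have hRb : r * n * n / R ≤ δ / 2 := by
    rw [div_le_iff₀ hR]
    simp only [R]
    rw [mul_add, mul_div_cancel₀ _ (by linarith : δ / 2 ≠ 0)]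
    linarith
  set K := Real.exp (C * (1 + R)) / Real.sqrt (2 * Real.pi) ^ n
  have hlim : Tendsto (fun j => K * ((r + 1) * n * (1 - a j)) + δ / 2 + h j ^ 3)
      (↑u : Filter ℕ) (𝓝 (δ / 2)) := by
    have := ((((ha.const_sub 1).const_mul ((r + 1) * n)).const_mul K).add_const (δ / 2)).add
      (hh.pow 3)
    simpa using this
  refine (ge_of_tendsto hlim ?_).trans (by linarith)
  filter_upwards [ha.eventually (eventually_ge_nhds zero_lt_one)] with j hj
  have hlo : ∀ x v, a j * sumSq v ≤ v ⬝ᵥ (hs (V j) x *ᵥ v) := fun x v => by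
    refine le_trans ?_ ((hD j).le_hs x v)
    rw [quad_diagonal, sumSq, mul_sum]
    refine sum_le_sum fun i _ => mul_le_mul_of_nonneg_right ?_ (sq_nonneg _)
    have : 1 - s j i ≤ ∑ k, (1 - s j k) :=
      single_le_sum (fun k _ => sub_nonneg.2 (hs1 j k)) (mem_univ i)
    simp only [a]
    linarith
  have := gdef_le_defect (hV j) (fun x => (hC _ (hV j) x).2) hj hlo hR
  linarith [hM j, (fgap_le_gdef hS (hV j) (hD j) he.le (hs0 j)).2]

omit hS in
lemma fgap_zero_matrix (U : (Fin n → ℝ) → ℝ) :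
    fgap e U 0 = gdef U - n * (1 / 5 + 2 / 5 * Real.log 3 + e) := by
  simp [fgap]

/-- The entropy gap bound, from the skew moment inequality. -/
theorem gdef_le_of_skew (U : (Fin n → ℝ) → ℝ) {a b : ℝ} (hb : Bd U a b) :
    gdef U ≤ n * (1 / 5 + 2 / 5 * Real.log 3) := by
  have hdom : Dom (b / a) U 0 := by
    refine ⟨(one_le_div hb.a_pos).2 hb.a_le, ⟨a, b, hb⟩, PosSemidef.zero, fun x v => ?_,
      a • 1, fun x v => ?_⟩
    · simp only [zero_mulVec, dotProduct_zero]
      exact (mul_nonneg hb.a_pos.le (sumSq_nonneg v)).trans (hb.lower x v)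
    · rw [smul_mulVec, dotProduct_smul, quad_one, smul_eq_mul, ← mul_assoc,
        div_mul_cancel₀ _ hb.a_pos.ne']
      exact ⟨hb.lower x v, hb.upper x v⟩
  refine le_of_forall_pos_le_add fun δ hδ => ?_
  have h := fgap_nonpos hS (e := δ / (n + 1)) (by positivity) hdom
  rw [fgap_zero_matrix] at h
  have : (n : ℝ) * (δ / (n + 1)) ≤ δ := by
    rw [← mul_div_assoc, div_le_iff₀ (by positivity)]
    nlinarith
  linarith

/-- The skew moment inequality gives `EntropyGap`. -/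
theorem entropyGap_of_skew : EntropyGap := fun n U a b hb => by
  refine (gdef_le_of_skew hS U hb).trans (mul_le_mul_of_nonneg_left ?_ (Nat.cast_nonneg n))
  have h1 : 2 * Real.log 3 ≤ 5 * Real.log 2 - 1 := by
    have h32 := Real.log_le_sub_one_of_pos (show (0:ℝ) < 9 / 32 * Real.exp 1 by positivity)
    rw [Real.log_mul (by norm_num) (Real.exp_pos 1).ne', Real.log_exp,
      Real.log_div (by norm_num) (by norm_num), show (9:ℝ) = 3 ^ 2 by norm_num,
      show (32:ℝ) = 2 ^ 5 by norm_num, Real.log_pow, Real.log_pow] at h32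
    push_cast at h32
    linarith [Real.exp_one_lt_d9]
  linarith

end Vale.Agent.P254M.Gap
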