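import Vale.Agent.P254M.Gap.Affine
import Vale.Agent.P254M.Gap.Expand
import Vale.Agent.P254.PairAlgebra2

/-!
Reduction to normalised states, and the weighted third moment inequality for the potential
`(1 - s) / 5 + (2 / 5) (log 3 - log (1 + 2 s))`.
-/

open MeasureTheory Set Filter Topology Finset Matrix
open Vale.Agent.P245 hiding cv
open scoped ContDiff

namespace Vale.Agent.P254M.Gap

variable {n : ℕ} {U : (Fin n → ℝ) → ℝ} {a b r e : ℝ} {L : Matrix (Fin n) (Fin n) ℝ}

/-- An admissible state: a potential with comparable Hessians and a lower curvature bound. -/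
structure Dom (r : ℝ) (U : (Fin n → ℝ) → ℝ) (L : Matrix (Fin n) (Fin n) ℝ) : Prop where
  one_le : 1 ≤ r
  bd : ∃ a b, Bd U a b
  psd : L.PosSemidef
  le_hs : ∀ x v, v ⬝ᵥ (L *ᵥ v) ≤ v ⬝ᵥ (hs U x *ᵥ v)
  comp : ∃ P : Matrix (Fin n) (Fin n) ℝ,
    ∀ x v, v ⬝ᵥ (P *ᵥ v) ≤ v ⬝ᵥ (hs U x *ᵥ v) ∧ v ⬝ᵥ (hs U x *ᵥ v) ≤ r * (v ⬝ᵥ (P *ᵥ v))

/-- The gap between the entropy deficit and the potential. -/
noncomputable def fgap (e : ℝ) (U : (Fin n → ℝ) → ℝ) (L : Matrix (Fin n) (Fin n) ℝ) : ℝ :=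
  gdef U + 2 / 5 * Real.log (1 + (2:ℝ) • (L * covm U)).det + (1 / 5 + e) * (L * covm U).trace
    - n * (1 / 5 + 2 / 5 * Real.log 3 + e)

lemma quad_conj (A R : Matrix (Fin n) (Fin n) ℝ) (v : Fin n → ℝ) :
    v ⬝ᵥ ((Rᵀ * A * R) *ᵥ v) = (R *ᵥ v) ⬝ᵥ (A *ᵥ (R *ᵥ v)) := by
  rw [← mulVec_mulVec, ← mulVec_mulVec, dotProduct_mulVec, vecMul_transpose]

lemma quad_one (v : Fin n → ℝ) : v ⬝ᵥ ((1 : Matrix (Fin n) (Fin n) ℝ) *ᵥ v) = sumSq v := by
  simp [one_mulVec, dotProduct, sumSq, pow_two]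

lemma quad_diagonal (s v : Fin n → ℝ) : v ⬝ᵥ (diagonal s *ᵥ v) = ∑ i, s i * v i ^ 2 := by
  simp only [dotProduct, mulVec_diagonal]
  exact sum_congr rfl fun i _ => by ring

lemma dom_aff (h : Dom r U L) {R : Matrix (Fin n) (Fin n) ℝ} (hR : R.det ≠ 0) (c : Fin n → ℝ)
    (κ : ℝ) : Dom r (aff U R c κ) (Rᵀ * L * R) := by
  obtain ⟨a, b, hb⟩ := h.bd
  obtain ⟨P, hP⟩ := h.comp
  refine ⟨h.one_le, bd_aff hb hR, ?_, fun x v => ?_, Rᵀ * P * R, fun x v => ?_⟩
  · simpa using h.psd.conjTranspose_mul_mul_same R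
  · rw [quad_hs_aff R c κ hb.smooth, quad_conj]
    exact h.le_hs _ _
  · rw [quad_hs_aff R c κ hb.smooth, quad_conj]
    exact hP _ _

lemma covm_sq_bound (hb : Bd U a b) {q : ℝ} (v : Fin n → ℝ)
    (hq : ∀ x, v ⬝ᵥ (hs U x *ᵥ v) ≤ q) :
    sumSq v ^ 2 ≤ (v ⬝ᵥ (covm U *ᵥ v)) * q := by
  have hG := hb.grow
  set f : (Fin n → ℝ) → ℝ := fun x => ∑ i, v i * (x i - mn U i)
  set g : (Fin n → ℝ) → ℝ := fun x => ∑ i, v i * gr U x i
  have hx : ∀ i, Poly fun x : Fin n → ℝ => x i - mn U i := fun i => (Poly.coord i).sub_const _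
  have hfp : Poly f := Poly.sum _ fun i _ => (hx i).const_mul _
  have hgp : Poly g := Poly.sum _ fun i _ => (hb.poly_gr i).const_mul _
  have h1 : ex U (fun x => f x ^ 2) = v ⬝ᵥ (covm U *ᵥ v) := by
    have e1 : (fun x => f x ^ 2) = fun x =>
        ∑ i, ∑ j, v i * v j * ((x i - mn U i) * (x j - mn U j)) := by
      funext x; simp only [f, pow_two, sum_mul_sum]
      exact sum_congr rfl fun i _ => sum_congr rfl fun j _ => by ring
    rw [e1, hG.ex_sum _ fun i _ => Poly.sum _ fun j _ => ((hx i).mul (hx j)).const_mul _]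
    simp only [dotProduct, mulVec, mul_sum]
    refine sum_congr rfl fun i _ => ?_
    rw [hG.ex_sum _ fun j _ => ((hx i).mul (hx j)).const_mul _]
    refine sum_congr rfl fun j _ => ?_
    rw [ex_const_mul, ← covm_eq_ex hG]; ring
  have h2 : ex U (fun x => f x * g x) = sumSq v := by
    have e1 : (fun x => f x * g x) = fun x =>
        ∑ i, ∑ j, v i * v j * (x i * gr U x j - mn U i * gr U x j) := by
      funext x; simp only [f, g, sum_mul_sum]
      exact sum_congr rfl fun i _ => sum_congr rfl fun j _ => by ring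
    have hp : ∀ i j, Poly fun x => x i * gr U x j - mn U i * gr U x j := fun i j =>
      ((Poly.coord i).mul (hb.poly_gr j)).sub ((hb.poly_gr j).const_mul _)
    rw [e1, hG.ex_sum _ fun i _ => Poly.sum _ fun j _ => (hp i j).const_mul _, sumSq]
    refine sum_congr rfl fun i _ => ?_
    rw [hG.ex_sum _ fun j _ => (hp i j).const_mul _]
    simp only [ex_const_mul, hG.ex_sub ((Poly.coord i).mul (hb.poly_gr _))
      ((hb.poly_gr _).const_mul _), hb.ex_coord_mul_gr, hb.ex_gr]
    simp [pow_two]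
  have h3 : ex U (fun x => g x ^ 2) ≤ q := by
    have e1 : ex U (fun x => g x ^ 2) = ex U (fun x => v ⬝ᵥ (hs U x *ᵥ v)) := by
      have e2 : (fun x => g x ^ 2) = fun x => ∑ i, ∑ j, v i * v j * (gr U x i * gr U x j) := by
        funext x; simp only [g, pow_two, sum_mul_sum]
        exact sum_congr rfl fun i _ => sum_congr rfl fun j _ => by ring
      have e3 : (fun x => v ⬝ᵥ (hs U x *ᵥ v)) = fun x => ∑ i, ∑ j, v i * v j * hs U x i j := by
        funext x; simp only [dotProduct, mulVec, mul_sum]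
        exact sum_congr rfl fun i _ => sum_congr rfl fun j _ => by ring
      have p1 : ∀ i j, Poly fun x => v i * v j * (gr U x i * gr U x j) := fun i j =>
        ((hb.poly_gr i).mul (hb.poly_gr j)).const_mul _
      have p2 : ∀ i j, Poly fun x => v i * v j * hs U x i j := fun i j =>
        (hb.poly_hs i j).const_mul _
      rw [e2, e3, hG.ex_sum _ fun i _ => Poly.sum _ fun j _ => p1 i j,
        hG.ex_sum _ fun i _ => Poly.sum _ fun j _ => p2 i j]
      refine sum_congr rfl fun i _ => ?_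
      rw [hG.ex_sum _ fun j _ => p1 i j, hG.ex_sum _ fun j _ => p2 i j]
      simp only [ex_const_mul, hb.ex_gr_mul_gr]
      rfl
    rw [e1, ← hG.ex_const q]
    refine hG.ex_mono ?_ (Poly.const q) hq
    exact poly_dot (fun i => Poly.const _) fun i =>
      poly_mulVec hb.poly_hs (v := fun _ => v) (fun j => Poly.const (v j)) i
  calc sumSq v ^ 2 ≤ (v ⬝ᵥ (covm U *ᵥ v)) * ex U (fun x => g x ^ 2) := by
        rw [← h1, ← h2]; exact hG.ex_cs hfp hgp
    _ ≤ _ := mul_le_mul_of_nonneg_left h3 (by rw [← h1]; exact hG.ex_nonneg fun x => sq_nonneg _)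

lemma covm_posDef (hb : Bd U a b) : (covm U).PosDef := by
  refine Matrix.PosDef.of_dotProduct_mulVec_pos ?_ fun v hv => ?_
  · exact IsHermitian.ext fun i j => by simp [covm_symm U j i]
  have h := covm_sq_bound hb v fun x => hb.upper x v
  have h0 : 0 < sumSq v := by
    refine lt_of_le_of_ne (sumSq_nonneg v) fun h0 => hv ?_
    funext i
    have := sq_le_sumSq v i
    rw [← h0] at this
    exact sq_eq_zero_iff.1 (le_antisymm this (sq_nonneg _))
  simp only [star_trivial]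
  nlinarith [pow_pos h0 2, mul_pos hb.b_pos h0]

lemma fgap_aff (hb : Bd U a b) {R : Matrix (Fin n) (Fin n) ℝ} (hR : R.det ≠ 0) (c : Fin n → ℝ)
    (κ : ℝ) : fgap e (aff U R c κ) (Rᵀ * L * R) = fgap e U L := by
  have hu := isUnit_iff_ne_zero.2 hR
  have hut : IsUnit Rᵀ.det := by rwa [det_transpose]
  rw [fgap, fgap, gdef_aff hb hR (covm_posDef hb).det_pos, covm_aff hb hR]
  have h1 : Rᵀ * L * R * (R⁻¹ * covm U * R⁻¹ᵀ) = Rᵀ * (L * covm U) * (Rᵀ)⁻¹ := by
    rw [transpose_nonsing_inv]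
    simp only [Matrix.mul_assoc]
    rw [← Matrix.mul_assoc R R⁻¹, mul_nonsing_inv R hu, Matrix.one_mul]
  have h2 : 1 + (2:ℝ) • (Rᵀ * (L * covm U) * (Rᵀ)⁻¹) =
      Rᵀ * (1 + (2:ℝ) • (L * covm U)) * (Rᵀ)⁻¹ := by
    rw [Matrix.mul_add, Matrix.mul_one, Matrix.add_mul, mul_nonsing_inv _ hut, Matrix.mul_smul,
      Matrix.smul_mul]
  rw [h1, h2, det_mul, det_mul, mul_right_comm, ← det_mul, mul_nonsing_inv _ hut, det_one, one_mul,
    trace_mul_comm, ← Matrix.mul_assoc, nonsing_inv_mul _ hut, Matrix.one_mul]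

/-- An orthogonal diagonalisation. -/
lemma exists_orthogonal {A : Matrix (Fin n) (Fin n) ℝ} (hA : A.IsHermitian) :
    ∃ W : Matrix (Fin n) (Fin n) ℝ, Wᵀ * W = 1 ∧ W * Wᵀ = 1 ∧ W.det ≠ 0 ∧
      Wᵀ * A * W = diagonal hA.eigenvalues := by
  set W : Matrix (Fin n) (Fin n) ℝ := ↑(hA.eigenvectorUnitary) with hW
  have h1 : Wᵀ * W = 1 := by
    simpa [star_eq_conjTranspose] using Unitary.coe_star_mul_self hA.eigenvectorUnitary
  have h2 : W * Wᵀ = 1 := by
    simpa [star_eq_conjTranspose] using Unitary.coe_mul_star_self hA.eigenvectorUnitary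
  refine ⟨W, h1, h2, ?_, ?_⟩
  · intro h0
    have := congrArg Matrix.det h1
    simp [det_mul, h0] at this
  · have := hA.spectral_theorem
    rw [Unitary.conjStarAlgAut_apply] at this
    conv_lhs => rw [this]
    simp only [star_eq_conjTranspose, conjTranspose_eq_transpose_of_trivial, ← hW,
      Function.comp_def,
      RCLike.ofReal_real_eq_id, id_eq]
    rw [← Matrix.mul_assoc, ← Matrix.mul_assoc, h1, Matrix.one_mul, Matrix.mul_assoc, h1,
      Matrix.mul_one]

variable (hS : SkewMoment)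
include hS

/-- The third moment inequality in the frame of the curvature bound. -/
lemma skew_apply (hb : Bd U a b) (hm : mn U = 0) (hc : covm U = 1) {s : Fin n → ℝ}
    (hs0 : ∀ i, 0 ≤ s i) (hle : ∀ x v, ∑ i, s i * v i ^ 2 ≤ v ⬝ᵥ (hs U x *ᵥ v))
    {c l : Fin n → ℝ} (hcp : ∀ i, 0 < c i) (hl : ∀ i, 0 ≤ l i) :
    (∑ i, ∑ j, ∑ k, (1 + 2 * s i * l i / c i) * (c i * c j) * tens U i j k ^ 2 / 4)
      + ∑ i, s i * l i * (2 * c i - l i) ≤ ∑ i, c i ^ 2 := by
  set d : Fin n → ℝ := fun i => Real.sqrt (c i)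
  have hd : ∀ i, 0 < d i := fun i => Real.sqrt_pos.2 (hcp i)
  have hdd : ∀ i, d i ^ 2 = c i := fun i => Real.sq_sqrt (hcp i).le
  set R : Matrix (Fin n) (Fin n) ℝ := diagonal fun i => (d i)⁻¹ with hRdef
  have hR : R.det ≠ 0 := by
    rw [hRdef, det_diagonal]; exact prod_ne_zero_iff.2 fun i _ => inv_ne_zero (hd i).ne'
  have hRi : R⁻¹ = diagonal d := by
    refine inv_eq_right_inv ?_
    rw [hRdef, diagonal_mul_diagonal, ← diagonal_one]
    congr 1; funext i; exact inv_mul_cancel₀ (hd i).ne'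
  obtain ⟨a', b', hb'⟩ := bd_aff (c := (0 : Fin n → ℝ)) (κ := 0) hb hR
  set V := aff U R 0 0
  have hmV : mn V = 0 := by
    rw [mn_aff hb.grow hR, hm, sub_zero, mulVec_zero]
  have hcV : covm V = diagonal c := by
    rw [covm_aff hb hR, hc, hRi, Matrix.mul_one, diagonal_transpose, diagonal_mul_diagonal]
    congr 1; funext i; rw [← hdd, pow_two]
  have htens : ∀ i j k, tens V i j k = d i * d j * d k * tens U i j k := by
    intro i j k
    simp only [tens, hmV, hm, Pi.zero_apply, sub_zero]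
    have e1 : (fun y : Fin n → ℝ => y i * y j * y k) =
        fun y => (fun x : Fin n → ℝ => d i * d j * d k * (x i * x j * x k)) (R *ᵥ y + 0) := by
      funext y
      simp only [add_zero, hRdef, mulVec_diagonal]
      field_simp [(hd i).ne', (hd j).ne', (hd k).ne']
    exact (congrArg (ex V) e1).trans ((ex_aff (U := U) R 0 0 hR
      (fun x => d i * d j * d k * (x i * x j * x k))).trans (ex_const_mul _ _ _))
  have hleV : ∀ x v, ∑ i, s i / c i * v i ^ 2 ≤ v ⬝ᵥ (hs V x *ᵥ v) := fun x v => by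
    rw [quad_hs_aff R 0 0 hb.smooth]
    refine le_trans (le_of_eq ?_) (hle _ _)
    refine sum_congr rfl fun i _ => ?_
    rw [hRdef, mulVec_diagonal, ← hdd i]
    field_simp
  have h := hS n V a' b' c (fun i => s i / c i) l hb' hmV hcV hcp
    (fun i => div_nonneg (hs0 i) (hcp i).le) hl hleV
  refine le_trans (le_of_eq ?_) h
  congr 1
  · refine sum_congr rfl fun i _ => sum_congr rfl fun j _ => sum_congr rfl fun k _ => ?_
    rw [htens, mul_pow, mul_pow, mul_pow, hdd, hdd, hdd]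
    field_simp [(hcp i).ne', (hcp k).ne']
  · refine sum_congr rfl fun i _ => ?_
    field_simp [(hcp i).ne']

lemma curvature_le_one (hb : Bd U a b) (hm : mn U = 0) (hc : covm U = 1) {s : Fin n → ℝ}
    (hs0 : ∀ i, 0 ≤ s i) (hle : ∀ x v, ∑ i, s i * v i ^ 2 ≤ v ⬝ᵥ (hs U x *ᵥ v)) (i : Fin n) :
    s i ≤ 1 := by
  refine le_of_forall_pos_le_add fun δ hδ => ?_
  set t : ℝ := min 1 (δ / (n + 1))
  have ht : 0 < t := lt_min one_pos (by positivity)
  have h := skew_apply hS hb hm hc hs0 hle (c := fun k => if k = i then 1 else t)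
    (l := fun k => if k = i then 1 else 0) (fun k => by split_ifs <;> linarith)
    (fun k => by split_ifs <;> norm_num)
  have h1 : s i ≤ ∑ k, (if k = i then (1:ℝ) else t) ^ 2 := by
    refine le_trans ?_ h
    refine le_add_of_nonneg_of_le (sum_nonneg fun _ _ => sum_nonneg fun _ _ => sum_nonneg fun _ _ =>
      ?_) ?_
    · refine div_nonneg (mul_nonneg (mul_nonneg ?_ ?_) (sq_nonneg _)) (by norm_num)
      · refine add_nonneg zero_le_one
          (div_nonneg (mul_nonneg (mul_nonneg zero_le_two (hs0 _)) ?_) ?_)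
          <;> split_ifs <;> linarith
      · exact mul_nonneg (by split_ifs <;> linarith) (by split_ifs <;> linarith)
    · rw [Finset.sum_eq_single i (fun k _ hk => by simp [hk]) (by simp)]
      norm_num
  refine h1.trans ?_
  rw [← Finset.add_sum_erase _ _ (mem_univ i)]
  simp only [if_true, one_pow, add_le_add_iff_left]
  calc ∑ k ∈ univ.erase i, (if k = i then (1:ℝ) else t) ^ 2
      ≤ ∑ _k : Fin n, t := by
        refine (sum_le_sum fun k hk => ?_).trans
          (sum_le_sum_of_subset_of_nonneg (subset_univ _) fun _ _ _ => ht.le)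
        rw [if_neg (ne_of_mem_erase hk)]
        exact pow_two t ▸ mul_le_of_le_one_left ht.le (min_le_left _ _)
    _ ≤ δ := by
        simp only [sum_const, card_univ, Fintype.card_fin, nsmul_eq_mul]
        have := min_le_right (1:ℝ) (δ / (n + 1))
        rw [le_div_iff₀ (by positivity)] at this
        change t * (n + 1) ≤ δ at this
        nlinarith

omit hS in
lemma tens_symm12 (U : (Fin n → ℝ) → ℝ) (i j k : Fin n) : tens U i j k = tens U j i k := by
  simp only [tens]; congr 1; funext x; ring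

/-- The drift inequality for the potential of slope `(1 + 2 s/5)/(1 + 2 s)`. -/
lemma drift_le (hb : Bd U a b) (hm : mn U = 0) (hc : covm U = 1) {s : Fin n → ℝ}
    (hs0 : ∀ i, 0 ≤ s i) (hle : ∀ x v, ∑ i, s i * v i ^ 2 ≤ v ⬝ᵥ (hs U x *ᵥ v)) :
    ∑ i, ∑ j, ∑ k, (1 / 4 + 1 / 5 * (2 * s i / (1 + 2 * s i)) * (2 * s j / (1 + 2 * s j)))
        * tens U i j k ^ 2
      ≤ ∑ i, (1 / 5 + 4 / 5 / (1 + 2 * s i)) * (1 - s i) := by
  set c : Fin n → ℝ := fun i => Real.sqrt ((1 + 2 / 5 * s i) / (1 + 2 * s i))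
  have hcp : ∀ i, 0 < c i := fun i => by
    have := hs0 i
    exact Real.sqrt_pos.2 (by positivity)
  set M : Fin n → Fin n → ℝ := fun i j => ∑ k, tens U i j k ^ 2 / 4
  have hM : ∀ i j, M i j = M j i := fun i j => by simp only [M, tens_symm12 U i j]
  have h := skew_apply hS hb hm hc hs0 hle hcp (l := c) fun i => (hcp i).le
  have h1 : ∑ i, ∑ j, c i * c j * (1 + s i + s j) * M i j ≤ ∑ i, c i ^ 2 * (1 - s i) := by
    have e1 : ∑ i, ∑ j, c i * c j * (1 + s i + s j) * M i j =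
        ∑ i, ∑ j, c i * c j * (1 + 2 * s i) * M i j := by
      have e2 : ∑ i, ∑ j, c i * c j * s j * M i j = ∑ i, ∑ j, c i * c j * s i * M i j := by
        rw [sum_comm]
        exact sum_congr rfl fun i _ => sum_congr rfl fun j _ => by rw [hM j i]; ring
      calc _ = ∑ i, ∑ j, (c i * c j * (1 + s i) * M i j + c i * c j * s j * M i j) :=
            sum_congr rfl fun i _ => sum_congr rfl fun j _ => by ring
        _ = ∑ i, ∑ j, (c i * c j * (1 + s i) * M i j + c i * c j * s i * M i j) := by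
            simp only [sum_add_distrib, e2]
        _ = _ := sum_congr rfl fun i _ => sum_congr rfl fun j _ => by ring
    have e3 : ∀ i j k, (1 + 2 * s i * c i / c i) * (c i * c j) * tens U i j k ^ 2 / 4 =
        c i * c j * (1 + 2 * s i) * (tens U i j k ^ 2 / 4) := fun i j k => by
      rw [mul_div_assoc (2 * s i), div_self (hcp i).ne']; ring
    simp only [e3, ← mul_sum] at h
    rw [e1]
    have e4 : ∑ i, c i ^ 2 * (1 - s i) = (∑ i, c i ^ 2) - ∑ i, s i * c i * (2 * c i - c i) := by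
      rw [← sum_sub_distrib]; exact sum_congr rfl fun i _ => by ring
    rw [e4]
    exact le_sub_iff_add_le.2 h
  calc _ = ∑ i, ∑ j, (1 + 16 / 5 * (s i * s j) / ((1 + 2 * s i) * (1 + 2 * s j))) * M i j := by
        refine sum_congr rfl fun i _ => sum_congr rfl fun j _ => ?_
        simp only [M, mul_sum]
        exact sum_congr rfl fun k _ => by
          field_simp [(by linarith [hs0 i] : 1 + 2 * s i ≠ 0),
            (by linarith [hs0 j] : 1 + 2 * s j ≠ 0)]
          ring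
    _ ≤ ∑ i, ∑ j, c i * c j * (1 + s i + s j) * M i j :=
        sum_le_sum fun i _ => sum_le_sum fun j _ => mul_le_mul_of_nonneg_right
          (P254.pair_ineq_two_fifths (hs0 i) (hs0 j))
          (sum_nonneg fun k _ => div_nonneg (sq_nonneg _) (by norm_num))
    _ ≤ _ := h1
    _ = _ := sum_congr rfl fun i _ => by
        have := hs0 i
        simp only [c]
        rw [Real.sq_sqrt (by positivity)]
        congr 1
        field_simp
        ring

/-- Every state is equivalent to a normalised one. -/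
lemma exists_normal (h : Dom r U L) :
    ∃ (V : (Fin n → ℝ) → ℝ) (s : Fin n → ℝ), Nz V r ∧ Dom r V (diagonal s) ∧
      (∀ i, 0 ≤ s i) ∧ fgap e V (diagonal s) = fgap e U L := by
  obtain ⟨a, b, hb⟩ := h.bd
  set S := covm U
  have hSp : S.PosDef := covm_posDef hb
  obtain ⟨Q, hQ1, hQ2, hQd, hQ⟩ := exists_orthogonal hSp.isHermitian
  set μ := hSp.isHermitian.eigenvalues
  have hμ : ∀ i, 0 < μ i := hSp.eigenvalues_pos
  set R₀ := Q * diagonal fun i => Real.sqrt (μ i) with hR₀def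
  have hR₀ : R₀.det ≠ 0 := by
    rw [hR₀def, det_mul, det_diagonal]
    exact mul_ne_zero hQd (prod_ne_zero_iff.2 fun i _ => (Real.sqrt_pos.2 (hμ i)).ne')
  have hS0 : R₀ * R₀ᵀ = S := by
    rw [hR₀def, transpose_mul, diagonal_transpose, Matrix.mul_assoc,
      ← Matrix.mul_assoc (diagonal _), diagonal_mul_diagonal]
    simp only [Real.mul_self_sqrt (hμ _).le]
    rw [← hQ, ← Matrix.mul_assoc, ← Matrix.mul_assoc, ← Matrix.mul_assoc, hQ2, Matrix.one_mul,
      Matrix.mul_assoc, hQ2, Matrix.mul_one]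
  have hL : (R₀ᵀ * L * R₀).PosSemidef := by simpa using h.psd.conjTranspose_mul_mul_same R₀
  obtain ⟨W, hW1, hW2, hWd, hW⟩ := exists_orthogonal hL.isHermitian
  set s := hL.isHermitian.eigenvalues
  set R := R₀ * W with hRdef
  have hR : R.det ≠ 0 := by rw [hRdef, det_mul]; exact mul_ne_zero hR₀ hWd
  have hRR : R * Rᵀ = S := by
    rw [hRdef, transpose_mul, Matrix.mul_assoc, ← Matrix.mul_assoc W, hW2, Matrix.one_mul, hS0]
  have hRL : Rᵀ * L * R = diagonal s := by
    rw [← hW, hRdef, transpose_mul]; simp only [Matrix.mul_assoc]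
  set κ := Real.log (|R.det|⁻¹ * Zp U)
  set V := aff U R (mn U) κ
  have hdom : Dom r V (diagonal s) := hRL ▸ dom_aff h hR (mn U) κ
  obtain ⟨a', b', hbV⟩ := hdom.bd
  have hpos : 0 < |R.det|⁻¹ * Zp U := mul_pos (inv_pos.2 (abs_pos.2 hR)) hb.grow.Zp_pos
  have hmass : Zp V = 1 := by
    rw [Zp_aff R (mn U) κ hR, mul_left_comm, Real.exp_neg, Real.exp_log hpos, inv_mul_cancel₀]
    exact hpos.ne'
  have hmean : mn V = 0 := by rw [mn_aff hb.grow hR, sub_self, mulVec_zero]
  have hcov : covm V = 1 := by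
    rw [covm_aff hb hR, show covm U = R * Rᵀ from hRR.symm, transpose_nonsing_inv,
      ← Matrix.mul_assoc, nonsing_inv_mul _ (isUnit_iff_ne_zero.2 hR), Matrix.one_mul,
      mul_nonsing_inv _ (by rw [det_transpose]; exact isUnit_iff_ne_zero.2 hR)]
  refine ⟨V, s, ⟨h.one_le, ?_, hmass, hmean, hcov⟩, hdom, hL.eigenvalues_nonneg, ?_⟩
  · obtain ⟨P, hP⟩ := hdom.comp
    have hr : 0 < r := by linarith [h.one_le]
    have hlow : ∀ v, sumSq v ≤ r * (v ⬝ᵥ (P *ᵥ v)) := fun v => by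
      have h1 := covm_sq_bound hbV v fun x => (hP x v).2
      rw [hcov, quad_one] at h1
      rcases (sumSq_nonneg v).eq_or_lt with h0 | h0
      · rw [← h0]
        have := (hP 0 v).2
        have := hbV.lower 0 v
        rw [← h0, mul_zero] at this
        linarith
      · exact le_of_mul_le_mul_left (by linarith) h0
    set P' : Matrix (Fin n) (Fin n) ℝ := (1 / 2 : ℝ) • (P + Pᵀ)
    have hP' : ∀ v, v ⬝ᵥ (P' *ᵥ v) = v ⬝ᵥ (P *ᵥ v) := fun v => by
      have : v ⬝ᵥ (Pᵀ *ᵥ v) = v ⬝ᵥ (P *ᵥ v) := by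
        rw [mulVec_transpose, dotProduct_comm, dotProduct_mulVec]
      simp only [P', smul_mulVec, add_mulVec, dotProduct_smul, dotProduct_add, this, smul_eq_mul]
      ring
    have hP'h : P'.IsHermitian := IsHermitian.ext fun i j => by simp [P', add_comm]
    obtain ⟨O, hO1, hO2, hOd, hO⟩ := exists_orthogonal hP'h
    set p := hP'h.eigenvalues
    obtain ⟨a2, b2, hb2⟩ := bd_aff (c := (0 : Fin n → ℝ)) (κ := 0) hbV hOd
    have hp : ∀ v, ∑ i, p i * v i ^ 2 = (O *ᵥ v) ⬝ᵥ (P *ᵥ (O *ᵥ v)) := fun v => by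
      rw [← quad_diagonal, ← hO, quad_conj, hP']
    have hp0 : ∀ i, 0 ≤ p i := fun i => by
      have h1 := hp (Pi.single i 1)
      simp [Pi.single_apply] at h1
      have h2 := hlow (O *ᵥ Pi.single i 1)
      have h3 := sumSq_nonneg (O *ᵥ Pi.single i (1:ℝ))
      have h4 : 0 ≤ (O *ᵥ Pi.single i (1:ℝ)) ⬝ᵥ (P *ᵥ (O *ᵥ Pi.single i 1)) := by nlinarith
      simp only [mulVec_single_one] at h4
      linarith [h1]
    have hcov2 : covm (aff V O 0 0) = 1 := by
      rw [covm_aff hbV hOd, hcov, Matrix.mul_one, inv_eq_left_inv hO1, transpose_transpose, hO1]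
    have hp1 := curvature_le_one hS hb2 (by rw [mn_aff hbV.grow hOd, hmean, sub_zero, mulVec_zero])
      hcov2 hp0 fun x v => by
        rw [hp, quad_hs_aff O 0 0 hbV.smooth]
        exact (hP _ _).1
    have hup : ∀ v, v ⬝ᵥ (P *ᵥ v) ≤ sumSq v := fun v => by
      have e : O *ᵥ (Oᵀ *ᵥ v) = v := by rw [mulVec_mulVec, hO2, one_mulVec]
      have h1 := hp (Oᵀ *ᵥ v)
      rw [e] at h1
      rw [← h1]
      refine le_trans (sum_le_sum fun i _ => mul_le_of_le_one_left (sq_nonneg _) (hp1 i)) ?_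
      have h2 := quad_conj (1 : Matrix (Fin n) (Fin n) ℝ) Oᵀ v
      rw [transpose_transpose, Matrix.mul_one, hO2, quad_one, quad_one] at h2
      exact le_of_eq h2.symm
    refine ⟨hbV.smooth, inv_pos.2 hr, (inv_le_one_of_one_le₀ h.one_le).trans h.one_le,
      fun x v => ?_, fun x v => ?_⟩
    · rw [inv_mul_le_iff₀ hr]
      exact (hlow v).trans (mul_le_mul_of_nonneg_left (hP x v).1 hr.le)
    · exact (hP x v).2.trans (mul_le_mul_of_nonneg_left (hup v) hr.le)
  · rw [← hRL]; exact fgap_aff hb hR _ _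

end Vale.Agent.P254M.Gap
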