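import Vale.Agent.P254M.Gap.Norm

/-!
A normalised potential whose curvature is nearly one has a small entropy gap.
-/

open MeasureTheory Set Filter Topology Finset Matrix
open Vale.Agent.P245 hiding cv
open scoped ContDiff

namespace Vale.Agent.P254M.Gap

variable {n : ℕ}

/-- The standard quadratic potential. -/
noncomputable def qpot (x : Fin n → ℝ) : ℝ := 1 / 2 * sumSq x

lemma contDiff_sumSq : ContDiff ℝ ∞ (sumSq : (Fin n → ℝ) → ℝ) :=
  ContDiff.sum fun i _ => (contDiff_apply ℝ ℝ i).pow 2

lemma pd_qpot (i : Fin n) : pd i (qpot : (Fin n → ℝ) → ℝ) = fun x => x i := by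
  funext x
  show pd i (fun y : Fin n → ℝ => 1 / 2 * sumSq y) x = x i
  rw [pd_const_mul (contDiff_sumSq.differentiable (by simp))]
  have e : (sumSq : (Fin n → ℝ) → ℝ) = fun y => ∑ k, y k * y k := by
    funext y; simp [sumSq, pow_two]
  rw [e, pd_sum _ fun k => by fun_prop]
  have e2 : ∀ k : Fin n, pd i (fun y : Fin n → ℝ => y k * y k) x
      = 2 * (if i = k then x k else 0) := fun k => by
    rw [pd_mul (differentiable_apply k) (differentiable_apply k), pd_proj]
    split_ifs <;> ring
  simp only [e2, ← Finset.mul_sum, Finset.sum_ite_eq, Finset.mem_univ, if_true]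
  ring

lemma hs_qpot (x : Fin n → ℝ) : hs (qpot : (Fin n → ℝ) → ℝ) x = 1 := by
  ext i j
  simp [hs, pd_qpot, pd_proj, one_apply]

lemma bd_qpot : Bd (qpot : (Fin n → ℝ) → ℝ) 1 1 :=
  ⟨contDiff_const.mul contDiff_sumSq, one_pos, le_rfl, fun x v => by
    rw [hs_qpot, quad_one, one_mul], fun x v => by rw [hs_qpot, quad_one, one_mul]⟩

lemma Zp_qpot : Zp (qpot : (Fin n → ℝ) → ℝ) = Real.sqrt (2 * Real.pi) ^ n := by
  have e : ∀ x : Fin n → ℝ, Real.exp (-qpot x) = ∏ i, Real.exp (-(1 / 2) * x i ^ 2) := fun x => by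
    rw [← Real.exp_sum, qpot, sumSq, mul_sum, ← sum_neg_distrib]
    congr 1
    exact sum_congr rfl fun i _ => by ring
  simp only [Zp, e]
  rw [integral_fintype_prod_volume_eq_prod (f := fun _ : Fin n => fun r : ℝ =>
    Real.exp (-(1 / 2) * r ^ 2))]
  simp only [prod_const, card_univ, Fintype.card_fin, integral_gaussian]
  congr 2
  ring

lemma ex_qpot_sumSq : ex (qpot : (Fin n → ℝ) → ℝ) sumSq = n := by
  have h := bd_qpot (n := n)
  have e : (sumSq : (Fin n → ℝ) → ℝ) = fun x => ∑ i, x i * gr qpot x i := by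
    funext x; simp [sumSq, gr, pd_qpot, pow_two]
  rw [e, h.grow.ex_sum _ fun i _ => (Poly.coord i).mul (h.poly_gr i)]
  simp [h.ex_coord_mul_gr]

variable {U : (Fin n → ℝ) → ℝ} {r a : ℝ}

lemma Nz.ex_sumSq (h : Nz U r) : ex U sumSq = n := by
  have e : (sumSq : (Fin n → ℝ) → ℝ) = fun x => ∑ i, x i * x i := by
    funext x; simp [sumSq, pow_two]
  rw [e, h.bd.grow.ex_sum _ fun i _ => (Poly.coord i).mul (Poly.coord i)]
  simp [h.ex_coord_mul]

lemma Nz.gdef_eq (h : Nz U r) :
    gdef U = (n : ℝ) / 2 * Real.log (2 * Real.pi * Real.exp 1) - ex U U := by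
  simp [gdef, h.cov, h.mass]

section Convex

variable (W : (Fin n → ℝ) → ℝ) (hW : ContDiff ℝ ∞ W)
  (h0 : ∀ x v, 0 ≤ v ⬝ᵥ (hs W x *ᵥ v))
include hW

lemma hasDerivAt_gr_line (x v w : Fin n → ℝ) (t : ℝ) :
    HasDerivAt (fun t : ℝ => ∑ i, w i * gr W (x + t • v) i) (w ⬝ᵥ (hs W (x + t • v) *ᵥ v)) t := by
  refine (HasDerivAt.fun_sum (u := (Finset.univ : Finset (Fin n))) fun i _ =>
    (hasDerivAt_comp_line ((contDiff_pd hW i).differentiable (by simp)) x v t).const_mul (w i))
    |>.congr_deriv ?_
  simp only [dotProduct, mulVec, mul_sum]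
  refine sum_congr rfl fun i _ => sum_congr rfl fun j _ => ?_
  rw [hs_symm hW]
  simp only [hs]; ring

include h0

lemma tangent_le (x y : Fin n → ℝ) : W y + ∑ i, (x i - y i) * gr W y i ≤ W x := by
  set v := x - y
  have hmono : Monotone fun t : ℝ => ∑ i, v i * gr W (y + t • v) i :=
    monotone_of_hasDerivAt_nonneg (hasDerivAt_gr_line W hW y v v) fun t => h0 _ v
  obtain ⟨t, ht, e⟩ := exists_hasDerivAt_eq_slope (fun t : ℝ => W (y + t • v))
    (fun t => ∑ i, v i * pd i W (y + t • v)) zero_lt_one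
    (fun t _ =>
      (hasDerivAt_comp_line (hW.differentiable (by simp)) y v t).continuousAt.continuousWithinAt)
    fun t _ => hasDerivAt_comp_line (hW.differentiable (by simp)) y v t
  have h := hmono ht.1.le
  simp [v, gr] at h e
  simp only [gr]
  linarith

lemma cocoercive {b : ℝ} (hb : 0 < b) (hup : ∀ x v, v ⬝ᵥ (hs W x *ᵥ v) ≤ b * sumSq v)
    (x y : Fin n → ℝ) :
    sumSq (gr W x - gr W y) ≤ b * ∑ i, (x i - y i) * (gr W x i - gr W y i) := by
  set v := x - y with hv
  set w := gr W x - gr W y with hw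
  set u := b • v - w with hu
  set k : ℝ → ℝ := fun t => ∑ i, (b * v i - 2 * w i) * gr W (y + t • v) i + t * sumSq w
  have hk : ∀ t, HasDerivAt k
      ((fun i => b * v i - 2 * w i) ⬝ᵥ (hs W (y + t • v) *ᵥ v) + sumSq w) t := fun t =>
    (hasDerivAt_gr_line W hW y v _ t).add (by simpa using (hasDerivAt_id t).mul_const (sumSq w))
  have hmono : Monotone k := monotone_of_hasDerivAt_nonneg hk fun t => by
    set H := hs W (y + t • v)
    have hsym : ∀ p q : Fin n → ℝ, p ⬝ᵥ (H *ᵥ q) = q ⬝ᵥ (H *ᵥ p) := fun p q => by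
      simp only [dotProduct, mulVec, mul_sum]
      rw [sum_comm]
      refine sum_congr rfl fun i _ => sum_congr rfl fun j _ => ?_
      rw [show H j i = H i j from hs_symm hW _ j i]; ring
    have h1 := h0 (y + t • v) u
    have h2 := hup (y + t • v) w
    have e : (fun i => b * v i - 2 * w i) = b • v - (2:ℝ) • w := by funext i; simp
    rw [e]
    simp only [u, mulVec_sub, mulVec_smul, sub_dotProduct, dotProduct_sub, smul_dotProduct,
      dotProduct_smul, smul_eq_mul] at h1 ⊢
    rw [hsym v w] at h1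
    show (0:ℝ) ≤ b * v ⬝ᵥ (H *ᵥ v) - 2 * (w ⬝ᵥ (H *ᵥ v)) + sumSq w
    nlinarith
  have h := hmono zero_le_one
  have e : y + v = x := by simp [hv]
  simp only [k, zero_smul, add_zero, zero_mul, one_mul, one_smul, e] at h
  have e2 : ∑ i, (b * v i - 2 * w i) * gr W x i - ∑ i, (b * v i - 2 * w i) * gr W y i =
      b * (∑ i, (x i - y i) * (gr W x i - gr W y i)) - 2 * sumSq w := by
    simp only [sumSq, mul_sum, ← sum_sub_distrib]
    exact sum_congr rfl fun i _ => by simp only [hv, hw, Pi.sub_apply]; ring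
  linarith

end Convex

/-- A uniform bound of the entropy gap by the curvature defect. -/
lemma gdef_le_defect (h : Nz U r) {C : ℝ} (hC : ∀ x, |U x| ≤ C * wt x) (ha : 0 ≤ a)
    (hlo : ∀ x v, a * sumSq v ≤ v ⬝ᵥ (hs U x *ᵥ v)) {R : ℝ} (hR : 0 < R) :
    gdef U ≤ Real.exp (C * (1 + R)) / Real.sqrt (2 * Real.pi) ^ n * ((r + 1) * n * (1 - a))
      + r * n * n / R := by
  have hr := h.r_pos
  have hG := h.bd.grow
  have hQ := bd_qpot (n := n)
  have hUd : Differentiable ℝ U := h.bd.diff
  have hqd : Differentiable ℝ (qpot : (Fin n → ℝ) → ℝ) := hQ.diff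
  set W : (Fin n → ℝ) → ℝ := fun x => U x - a * qpot x
  have hW : ContDiff ℝ ∞ W := h.bd.smooth.sub (contDiff_const.mul hQ.smooth)
  have hgrW : ∀ x i, gr W x i = gr U x i - a * x i := fun x i => by
    show pd i (fun y => U y - a * qpot y) x = _
    rw [pd_sub hUd (hqd.const_mul a), pd_const_mul hqd, pd_qpot]
    rfl
  have hhsW : ∀ x, hs W x = hs U x - a • (1 : Matrix (Fin n) (Fin n) ℝ) := fun x => by
    ext i j
    have e : pd j W = fun y => pd j U y - a * y j := funext fun y => hgrW y j
    show pd i (pd j W) x = _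
    rw [e, pd_sub (h.bd.diff_gr j) (by fun_prop), pd_const_mul (by fun_prop), pd_proj]
    simp [hs, one_apply]
  have hW0 : ∀ x v, 0 ≤ v ⬝ᵥ (hs W x *ᵥ v) := fun x v => by
    rw [hhsW, sub_mulVec, dotProduct_sub, smul_mulVec, dotProduct_smul, quad_one, smul_eq_mul]
    linarith [hlo x v]
  have hWb : ∀ x v, v ⬝ᵥ (hs W x *ᵥ v) ≤ r * sumSq v := fun x v => by
    rw [hhsW, sub_mulVec, dotProduct_sub, smul_mulVec, dotProduct_smul, quad_one, smul_eq_mul]
    linarith [h.bd.upper x v, mul_nonneg ha (sumSq_nonneg v)]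
  have hPU : Poly U := poly_potential h.bd
  have hPq : Poly (qpot : (Fin n → ℝ) → ℝ) := Poly.sumSq'.const_mul _
  have hPW : Poly W := hPU.sub (hPq.const_mul a)
  have hPg : ∀ i, Poly fun x => gr W x i := fun i =>
    ((h.bd.poly_gr i).sub ((Poly.coord i).const_mul a)).congr fun x => hgrW x i
  have hxg : Poly fun x => ∑ i, x i * gr W x i := Poly.sum _ fun i _ => (Poly.coord i).mul (hPg i)
  -- Jensen
  have j1 : (n : ℝ) / 2 * Real.log (2 * Real.pi * Real.exp 1) ≤ ex qpot U := by
    set d : (Fin n → ℝ) → ℝ := fun x => qpot x - U x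
    have hd : Poly d := hPq.sub hPU
    set m := ex qpot d
    have h1 : Real.exp m * Zp (qpot : (Fin n → ℝ) → ℝ) ≤ Zp U := by
      have i1 := hQ.grow.integrable (((hd.sub_const m).add (Poly.const 1)).const_mul (Real.exp m))
      have e1 : ∫ x, Real.exp m * (d x - m + 1) * Real.exp (-qpot x) =
          ex qpot (fun x => Real.exp m * (d x - m + 1)) * Zp (qpot : (Fin n → ℝ) → ℝ) := by
        rw [ex, div_mul_cancel₀ _ hQ.grow.Zp_pos.ne']
      rw [ex_const_mul, hQ.grow.ex_add (hd.sub_const m) (Poly.const 1), hQ.grow.ex_sub hd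
        (Poly.const m), hQ.grow.ex_const, hQ.grow.ex_const, sub_self, zero_add, mul_one] at e1
      rw [← e1]
      refine integral_mono i1 hG.integrable_exp fun x => ?_
      have := Real.add_one_le_exp (d x - m)
      calc Real.exp m * (d x - m + 1) * Real.exp (-qpot x)
          ≤ Real.exp m * Real.exp (d x - m) * Real.exp (-qpot x) := by gcongr
        _ = _ := by rw [← Real.exp_add, ← Real.exp_add]; congr 1; simp only [d]; ring
    have h2 := Real.log_le_log (mul_pos (Real.exp_pos m) hQ.grow.Zp_pos) h1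
    rw [h.mass, Real.log_one, Real.log_mul (Real.exp_pos m).ne' hQ.grow.Zp_pos.ne', Real.log_exp,
      Zp_qpot, Real.log_pow, Real.log_sqrt (by positivity)] at h2
    have hm : m = n / 2 - ex qpot U := by
      rw [show m = ex qpot d from rfl, hQ.grow.ex_sub hPq hPU,
        show ex (qpot : (Fin n → ℝ) → ℝ) qpot = 1 / 2 * ex qpot sumSq from ex_const_mul _ _ _,
        ex_qpot_sumSq]
      ring
    rw [Real.log_mul (by positivity : 2 * Real.pi ≠ 0) (Real.exp_pos 1).ne', Real.log_exp]
    linarith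
  have hqU : ex U qpot = n / 2 := by
    rw [show ex U qpot = 1 / 2 * ex U sumSq from ex_const_mul _ _ _, h.ex_sumSq]; ring
  have hqQ : ex (qpot : (Fin n → ℝ) → ℝ) qpot = n / 2 := by
    rw [show ex (qpot : (Fin n → ℝ) → ℝ) qpot = 1 / 2 * ex qpot sumSq from ex_const_mul _ _ _,
      ex_qpot_sumSq]
    ring
  have j2 : gdef U ≤ ex qpot W - ex U W := by
    rw [h.gdef_eq, show ex qpot W = ex qpot U - a * (n / 2) by
      rw [hQ.grow.ex_sub hPU (hPq.const_mul a), ex_const_mul, hqQ],
      show ex U W = ex U U - a * (n / 2) by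
      rw [hG.ex_sub hPU (hPq.const_mul a), ex_const_mul, hqU]]
    linarith
  -- tangent planes
  have j3 : ∀ y, W y - ∑ i, y i * gr W y i ≤ ex U W := fun y => by
    have hp : ∀ i, Poly fun x : Fin n → ℝ => (x i - y i) * gr W y i := fun i =>
      ((Poly.coord i).sub_const _).mul_const _
    have := hG.ex_mono ((Poly.const (W y)).add (Poly.sum _ fun i _ => hp i)) hPW fun x =>
      tangent_le W hW hW0 x y
    rw [hG.ex_add (Poly.const _) (Poly.sum _ fun i _ => hp i), hG.ex_const,
      hG.ex_sum _ fun i _ => hp i] at this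
    refine le_trans (le_of_eq ?_) this
    rw [sub_eq_add_neg, ← sum_neg_distrib]
    congr 1
    refine sum_congr rfl fun i _ => ?_
    rw [ex_mul_const, hG.ex_sub (Poly.coord i) (Poly.const _), h.ex_coord, hG.ex_const]
    ring
  set D : (Fin n → ℝ) → ℝ := fun x => ∑ i, hs W x i i with hD
  have hcW : ∀ i, ContDiff ℝ 1 fun x => gr W x i := fun i => (contDiff_pd hW i).of_le (by simp)
  have hWh : ∀ i, Poly fun x => hs W x i i := fun i =>
    ((h.bd.poly_hs i i).sub_const a).congr fun x => by simp [hhsW]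
  have hDp : Poly D := Poly.sum _ fun i _ => hWh i
  have j4 : ex qpot (fun y => ∑ i, y i * gr W y i) = ex qpot D := by
    rw [hQ.grow.ex_sum _ fun i _ => (Poly.coord i).mul (hPg i),
      hQ.grow.ex_sum _ fun i _ => hWh i]
    refine sum_congr rfl fun i _ => ?_
    have := hQ.ibp (hcW i) (hPg i) i (hWh i)
    rw [show pd i (fun x => gr W x i) = fun x => hs W x i i from rfl] at this
    rw [this]
    congr 1; funext x
    simp [gr, pd_qpot, mul_comm]
  have j5 : gdef U ≤ ex qpot D := by
    have := hQ.grow.ex_mono (hPW.sub hxg) (Poly.const (ex U W)) j3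
    rw [hQ.grow.ex_sub hPW hxg, hQ.grow.ex_const, j4] at this
    linarith
  -- the gradient of W is small in mean square
  have hgr0 : ∀ i, ex U (fun x => gr W x i) = 0 := fun i => by
    simp only [hgrW]
    rw [hG.ex_sub (h.bd.poly_gr i) ((Poly.coord i).const_mul a), h.bd.ex_gr, ex_const_mul,
      h.ex_coord]
    ring
  have hxgr : ex U (fun x => ∑ i, x i * gr W x i) = n * (1 - a) := by
    rw [hG.ex_sum _ fun i _ => (Poly.coord i).mul (hPg i)]
    have : ∀ i, ex U (fun x => x i * gr W x i) = 1 - a := fun i => by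
      simp only [hgrW, mul_sub, mul_left_comm _ a]
      rw [hG.ex_sub ((Poly.coord i).mul (h.bd.poly_gr i))
        (((Poly.coord i).mul (Poly.coord i)).const_mul a), h.bd.ex_coord_mul_gr, ex_const_mul,
        h.ex_coord_mul, one_apply_eq]
      simp
    simp [this]
    ring
  set S2 := ∑ i, ex U fun x => gr W x i ^ 2
  have j6 : S2 ≤ r * (n * (1 - a)) := by
    have hp : ∀ y, ∀ i, Poly fun x => (gr W x i - gr W y i) ^ 2 := fun y i =>
      ((hPg i).sub_const _).pow 2
    have hq : ∀ y, ∀ i, Poly fun x : Fin n → ℝ => (x i - y i) * (gr W x i - gr W y i) :=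
      fun y i => ((Poly.coord i).sub_const _).mul ((hPg i).sub_const _)
    have hy : ∀ y, S2 + ∑ i, gr W y i ^ 2 ≤ r * (n * (1 - a) + ∑ i, y i * gr W y i) := fun y => by
      have := hG.ex_mono (Poly.sum univ fun i _ => hp y i)
        ((Poly.sum univ fun i _ => hq y i).const_mul r) fun x => by
          simpa [sumSq] using cocoercive W hW hW0 hr hWb x y
      rw [hG.ex_sum _ fun i _ => hp y i, ex_const_mul, hG.ex_sum _ fun i _ => hq y i] at this
      refine le_trans (le_of_eq ?_) (this.trans (le_of_eq ?_))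
      · rw [← sum_add_distrib]
        refine sum_congr rfl fun i _ => ?_
        have e : (fun x => (gr W x i - gr W y i) ^ 2) =
            fun x => gr W x i ^ 2 - (2 * gr W y i * gr W x i - gr W y i ^ 2) := by funext x; ring
        rw [e, hG.ex_sub ((hPg i).pow 2) (((hPg i).const_mul _).sub_const _),
          hG.ex_sub ((hPg i).const_mul _) (Poly.const _), ex_const_mul, hgr0, hG.ex_const]
        ring
      · congr 1
        rw [← hxgr, hG.ex_sum _ (fun i _ => (Poly.coord i).mul (hPg i)), ← sum_add_distrib]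
        refine sum_congr rfl fun i _ => ?_
        have e : (fun x : Fin n → ℝ => (x i - y i) * (gr W x i - gr W y i)) = fun x =>
            x i * gr W x i - (gr W y i * x i + (y i * gr W x i - y i * gr W y i)) := by
          funext x; ring
        rw [e, hG.ex_sub ((Poly.coord i).mul (hPg i))
          (((Poly.coord i).const_mul _).add (((hPg i).const_mul _).sub_const _)),
          hG.ex_add ((Poly.coord i).const_mul _) (((hPg i).const_mul _).sub_const _),
          hG.ex_sub ((hPg i).const_mul _) (Poly.const _), ex_const_mul, ex_const_mul, hgr0,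
          h.ex_coord, hG.ex_const]
        ring
    have := hG.ex_mono ((Poly.const S2).add (Poly.sum univ fun i _ => (hPg i).pow 2))
      (((Poly.const (n * (1 - a))).add hxg).const_mul r) hy
    rw [hG.ex_add (Poly.const _) (Poly.sum univ fun i _ => (hPg i).pow 2), hG.ex_const,
      hG.ex_sum _ (fun i _ => (hPg i).pow 2), ex_const_mul, hG.ex_add (Poly.const _) hxg,
      hG.ex_const, hxgr] at this
    linarith
  have j7 : ex U D ≤ (r + 1) * n * (1 - a) := by
    have e : ex U D = S2 + n * (a - a ^ 2) := by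
      rw [hD, hG.ex_sum _ fun i _ => hWh i]
      have : ∀ i, ex U (fun x => hs W x i i) = ex U (fun x => gr W x i ^ 2) + (a - a ^ 2) :=
        fun i => by
          have := h.bd.ibp (hcW i) (hPg i) i (hWh i)
          rw [show pd i (fun x => gr W x i) = fun x => hs W x i i from rfl] at this
          rw [this]
          have e2 : (fun x => gr W x i * gr U x i) =
              fun x => gr W x i ^ 2 + a * (x i * gr U x i - a * (x i * x i)) := by
            funext x; rw [hgrW]; ring
          rw [e2, hG.ex_add ((hPg i).pow 2) ((((Poly.coord i).mul (h.bd.poly_gr i)).sub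
            (((Poly.coord i).mul (Poly.coord i)).const_mul a)).const_mul a), ex_const_mul,
            hG.ex_sub ((Poly.coord i).mul (h.bd.poly_gr i))
              (((Poly.coord i).mul (Poly.coord i)).const_mul a), ex_const_mul,
            h.bd.ex_coord_mul_gr, h.ex_coord_mul, one_apply_eq, if_pos rfl]
          ring
      simp [this, sum_add_distrib, S2]
      ring
    rw [e]
    have : (n:ℝ) * (a - a ^ 2) ≤ n * (1 - a) :=
      mul_le_mul_of_nonneg_left (by nlinarith [sq_nonneg (1 - a)]) (Nat.cast_nonneg n)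
    linarith
  -- transfer to the Gaussian
  have hd0 : ∀ x i, 0 ≤ hs W x i i ∧ hs W x i i ≤ r := fun x i => by
    have h1 := hW0 x (Pi.single i 1)
    have h2 := hWb x (Pi.single i 1)
    simp [sumSq, Pi.single_apply, mulVec, dotProduct] at h1 h2
    exact ⟨h1, h2⟩
  refine j5.trans ?_
  have hZ : Zp (qpot : (Fin n → ℝ) → ℝ) = Real.sqrt (2 * Real.pi) ^ n := Zp_qpot
  have i1 := (hG.integrable hDp).const_mul (Real.exp (C * (1 + R)))
  have i2 := (hQ.grow.integrable (Poly.sumSq' (n := n))).const_mul (r * n / R)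
  have hC0 : 0 ≤ C := by
    have := (abs_nonneg _).trans (hC 0)
    exact nonneg_of_mul_nonneg_left this (zero_lt_one.trans_le (one_le_wt _))
  have hpt : ∫ x, D x * Real.exp (-qpot x) ≤ Real.exp (C * (1 + R)) *
      (∫ x, D x * Real.exp (-U x)) +
      r * n / R * ∫ x : Fin n → ℝ, sumSq x * Real.exp (-qpot x) := by
    rw [← integral_const_mul, ← integral_const_mul, ← integral_add i1 i2]
    refine integral_mono (hQ.grow.integrable hDp) (i1.add i2) fun x => ?_
    have hD0 : 0 ≤ D x := sum_nonneg fun i _ => (hd0 x i).1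
    have hD1 : D x ≤ r * n := by
      refine (sum_le_sum fun i _ => (hd0 x i).2).trans (le_of_eq ?_)
      simp [mul_comm]
    have hS := sumSq_nonneg x
    rcases le_or_gt (sumSq x) R with hx | hx
    · refine le_add_of_le_of_nonneg ?_ (by positivity)
      rw [mul_left_comm, ← Real.exp_add]
      refine mul_le_mul_of_nonneg_left (Real.exp_le_exp.2 ?_) hD0
      have h1 := (le_abs_self _).trans (hC x)
      have h2 : C * wt x ≤ C * (1 + R) := mul_le_mul_of_nonneg_left (by simpa [wt] using hx) hC0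
      have h3 : 0 ≤ qpot x := mul_nonneg (by norm_num) hS
      linarith
    · refine le_add_of_nonneg_of_le (by positivity) ?_
      rw [← mul_assoc]
      refine mul_le_mul_of_nonneg_right (hD1.trans ?_) (Real.exp_pos _).le
      rw [div_mul_eq_mul_div, le_div_iff₀ hR]
      exact mul_le_mul_of_nonneg_left hx.le (by positivity)
  have hZ0 : 0 < Real.sqrt (2 * Real.pi) ^ n := by positivity
  have hU1 : ∫ x, D x * Real.exp (-U x) ≤ (r + 1) * n * (1 - a) := by rwa [← h.ex_eq]
  have hU2 : ∫ x : Fin n → ℝ, sumSq x * Real.exp (-qpot x) = n * Real.sqrt (2 * Real.pi) ^ n := by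
    have := ex_qpot_sumSq (n := n)
    rw [ex, hZ, div_eq_iff hZ0.ne'] at this
    exact this
  rw [ex, hZ, div_le_iff₀ hZ0]
  refine hpt.trans ?_
  rw [hU2]
  have := mul_le_mul_of_nonneg_left hU1 (Real.exp_pos (C * (1 + R))).le
  have e : (Real.exp (C * (1 + R)) / Real.sqrt (2 * Real.pi) ^ n * ((r + 1) * n * (1 - a)) +
      r * n * n / R) * Real.sqrt (2 * Real.pi) ^ n =
      Real.exp (C * (1 + R)) * ((r + 1) * n * (1 - a))
        + r * n / R * (n * Real.sqrt (2 * Real.pi) ^ n) := by
    field_simp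
  linarith

end Vale.Agent.P254M.Gap
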