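import Vale.Agent.P254M.Gap.Norm
import Vale.Agent.P254M.Gap.Terminal
import Vale.Agent.P254M.Gap.Det

/-!
Perturbations of normalised states along linear and quadratic tilts.
-/

open MeasureTheory Set Filter Topology Finset Matrix
open Vale.Agent.P245 hiding cv
open scoped ContDiff

namespace Vale.Agent.P254M.Gap

variable {n : ℕ} {V f : (Fin n → ℝ) → ℝ} {r e κ t : ℝ} {s : Fin n → ℝ}

/-- The negative quadratic direction. -/
noncomputable def fq (x : Fin n → ℝ) : ℝ := -qpot x

/-- A direction with constant Hessian. -/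
structure Dir (f : (Fin n → ℝ) → ℝ) (κ : ℝ) : Prop where
  smooth : ContDiff ℝ ∞ f
  le_wt : ∀ x, |f x| ≤ wt x
  hess : ∀ x, hs f x = -(κ • (1 : Matrix (Fin n) (Fin n) ℝ))

lemma dir_coord (l : Fin n) : Dir (fun x : Fin n → ℝ => x l) 0 := by
  refine ⟨contDiff_apply ℝ ℝ l, fun x => abs_coord_le x l, fun x => ?_⟩
  ext i j
  have e : pd j (fun x : Fin n → ℝ => x l) = fun _ => if j = l then (1:ℝ) else 0 :=
    funext fun y => pd_proj j l y
  simp [hs, e, pd]

lemma dir_fq : Dir (fq : (Fin n → ℝ) → ℝ) 1 := by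
  refine ⟨bd_qpot.smooth.neg, fun x => ?_, fun x => ?_⟩
  · rw [fq, abs_neg, qpot, abs_of_nonneg (mul_nonneg (by norm_num) (sumSq_nonneg x)), wt]
    linarith [sumSq_nonneg x]
  · ext i j
    have e : pd j (fq : (Fin n → ℝ) → ℝ) = fun y => -y j := funext fun y => by
      show pd j (fun z => -qpot z) y = _
      rw [pd_neg, pd_qpot]
    simp [hs, e, pd_neg, pd_proj, one_apply]

lemma Dir.poly (hf : Dir f κ) : Poly f :=
  ⟨hf.smooth.continuous, 1, 1, fun x => by simpa [wt] using hf.le_wt x⟩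

lemma hs_sub_smul {U : (Fin n → ℝ) → ℝ} (hU : ContDiff ℝ ∞ U) (hf : ContDiff ℝ ∞ f) (t : ℝ)
    (x : Fin n → ℝ) : hs (fun y => U y - t * f y) x = hs U x - t • hs f x := by
  ext i j
  have hfd : Differentiable ℝ f := hf.differentiable (by simp)
  have hd : Differentiable ℝ (pd j f) := (contDiff_pd hf j).differentiable (by simp)
  have e : pd j (fun y => U y - t * f y) = fun y => pd j U y - t * pd j f y := funext fun y => by
    rw [pd_sub (hU.differentiable (by simp)) (hfd.const_mul t), pd_const_mul hfd]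
  show pd i (pd j fun y => U y - t * f y) x = _
  rw [e, pd_sub ((contDiff_pd hU j).differentiable (by simp)) (hd.const_mul t), pd_const_mul hd]
  rfl

lemma dom_pert (hV : Nz V r) (hD : Dom r V (diagonal s)) (hf : Dir f κ) (ht : 0 ≤ t * κ) :
    Dom r (fun x => V x - t * f x) (diagonal fun i => s i + t * κ) := by
  have hh : ∀ x v, v ⬝ᵥ (hs (fun y => V y - t * f y) x *ᵥ v)
      = v ⬝ᵥ (hs V x *ᵥ v) + t * κ * sumSq v := fun x v => by
    rw [hs_sub_smul hV.bd.smooth hf.smooth, hf.hess, smul_neg, sub_neg_eq_add, smul_smul,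
      add_mulVec,
      dotProduct_add, smul_mulVec, dotProduct_smul, quad_one, smul_eq_mul]
  obtain ⟨P, hP⟩ := hD.comp
  refine ⟨hD.one_le, ⟨r⁻¹, r + t * κ, hV.bd.smooth.sub (contDiff_const.mul hf.smooth),
    hV.bd.a_pos, hV.bd.a_le.trans (by linarith), fun x v => ?_, fun x v => ?_⟩, ?_, fun x v => ?_,
    P + (t * κ) • 1, fun x v => ?_⟩
  · rw [hh]
    linarith [hV.bd.lower x v, mul_nonneg ht (sumSq_nonneg v)]
  · rw [hh, add_mul]
    linarith [hV.bd.upper x v]
  · refine posSemidef_diagonal_iff.2 fun i => add_nonneg ?_ ht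
    have := (posSemidef_diagonal_iff.1 hD.psd) i
    exact this
  · rw [hh, quad_diagonal]
    have := hD.le_hs x v
    rw [quad_diagonal] at this
    simp only [add_mul, sum_add_distrib, ← mul_sum]
    unfold sumSq
    linarith
  · rw [hh, add_mulVec, dotProduct_add, smul_mulVec, dotProduct_smul, quad_one, smul_eq_mul]
    refine ⟨by linarith [(hP x v).1], ?_⟩
    rw [mul_add]
    have := le_mul_of_one_le_left (mul_nonneg ht (sumSq_nonneg v)) hD.one_le
    linarith [(hP x v).2]

/-- The covariance of the tilted law, in terms of tilted integrals. -/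
noncomputable def covt (V f : (Fin n → ℝ) → ℝ) (t : ℝ) : Matrix (Fin n) (Fin n) ℝ := fun i j =>
  tint V (fun x => x i * x j) f t * (tint V (fun _ => 1) f t)⁻¹ -
    tint V (fun x => x i) f t * (tint V (fun _ => 1) f t)⁻¹ *
      (tint V (fun x => x j) f t * (tint V (fun _ => 1) f t)⁻¹)

/-- Entropy of the tilted law, up to sign, in terms of tilted integrals. -/
noncomputable def entt (V f : (Fin n → ℝ) → ℝ) (t : ℝ) : ℝ :=
  tint V V f t * (tint V (fun _ => 1) f t)⁻¹ - t * (tint V f f t * (tint V (fun _ => 1) f t)⁻¹)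
    + Real.log (tint V (fun _ => 1) f t)

lemma covm_sub_tilt (V f : (Fin n → ℝ) → ℝ) (t : ℝ) :
    covm (fun x => V x - t * f x) = covt V f t := by
  ext i j
  simp only [covm, cv2, covt, ex_sub_tilt, div_eq_mul_inv]

lemma covt_zero (hV : Nz V r) (f : (Fin n → ℝ) → ℝ) : covt V f 0 = 1 := by
  rw [← covm_sub_tilt]
  simpa using hV.cov

lemma wpert_self (r : Fin n → ℝ) : wpert r (1 : Matrix (Fin n) (Fin n) ℝ) = 0 := by
  ext a b; simp [wpert]

lemma wpert_one (M : Matrix (Fin n) (Fin n) ℝ) : 1 + wpert (fun _ => (1:ℝ)) M = M := by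
  ext a b; simp [wpert]

lemma det_one_add_wpert_pos {s : Fin n → ℝ} (hs : ∀ a, 0 ≤ s a) {M : Matrix (Fin n) (Fin n) ℝ}
    (hM : M.PosDef) : 0 < (1 + wpert (fun a => s a / (1 + s a)) M).det := by
  set E := diagonal fun a => Real.sqrt (s a)
  have h1 : diagonal s = E * E := by
    rw [diagonal_mul_diagonal]
    congr 1; funext a; rw [Real.mul_self_sqrt (hs a)]
  have h2 : 0 < (1 + E * M * E).det := by
    refine (PosDef.one.add_posSemidef ?_).det_pos
    have := hM.posSemidef.mul_mul_conjTranspose_same E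
    rwa [show Eᴴ = E by simp [E]] at this
  rw [← det_one_add_mul_comm, ← Matrix.mul_assoc, ← h1, det_one_add_diagonal_mul hs] at h2
  exact pos_of_mul_pos_right h2 (prod_nonneg fun a _ => by linarith [hs a])

/-- The gap of a perturbed state. -/
lemma fgap_pert (hV : Nz V r) (hD : Dom r V (diagonal s)) (hs0 : ∀ i, 0 ≤ s i) (hf : Dir f κ)
    (ht : 0 ≤ t * κ) :
    (covt V f t).PosDef ∧
    fgap e (fun x => V x - t * f x) (diagonal fun i => s i + t * κ) =
      (n : ℝ) / 2 * Real.log (2 * Real.pi * Real.exp 1)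
        + 1 / 2 * Real.log (1 + wpert (fun _ => (1:ℝ)) (covt V f t)).det - entt V f t
        + 2 / 5 * ((∑ i, Real.log (1 + 2 * (s i + t * κ)))
          + Real.log (1 + wpert (fun i => 2 * (s i + t * κ) / (1 + 2 * (s i + t * κ)))
              (covt V f t)).det)
        + (1 / 5 + e) * ∑ i, (s i + t * κ) * covt V f t i i
        - n * (1 / 5 + 2 / 5 * Real.log 3 + e) := by
  obtain ⟨a, b, hW⟩ := (dom_pert hV hD hf ht).bd
  set W : (Fin n → ℝ) → ℝ := fun x => V x - t * f x
  have hpd : (covt V f t).PosDef := covm_sub_tilt V f t ▸ covm_posDef hW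
  refine ⟨hpd, ?_⟩
  have hent : ex W W + Real.log (Zp W) = entt V f t := by
    have h1 : ex W W = ex W V - t * ex W f := by
      rw [← ex_const_mul, ← hW.grow.ex_sub (poly_potential hV.bd) (hf.poly.const_mul t)]
    rw [h1, entt, show Zp W = tint V (fun _ => 1) f t from Zp_sub_tilt V f t,
      show ex W V = _ from ex_sub_tilt V V f t, show ex W f = _ from ex_sub_tilt V f f t]
    ring
  have hs2 : ∀ i, 0 ≤ 2 * (s i + t * κ) := fun i => by linarith [hs0 i]
  rw [fgap, gdef, show covm W = covt V f t from covm_sub_tilt V f t, hent, wpert_one]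
  have hdet : (1 + (2:ℝ) • ((diagonal fun i => s i + t * κ) * covt V f t)).det =
      (∏ i, (1 + 2 * (s i + t * κ))) *
      (1 + wpert (fun i => 2 * (s i + t * κ) / (1 + 2 * (s i + t * κ))) (covt V f t)).det := by
    rw [← det_one_add_diagonal_mul hs2, ← Matrix.smul_mul, ← diagonal_smul]
    rfl
  rw [hdet, Real.log_mul (prod_ne_zero_iff.2 fun i _ => by linarith [hs2 i])
    (det_one_add_wpert_pos hs2 hpd).ne', Real.log_prod fun i _ => by linarith [hs2 i]]
  have htr : ((diagonal fun i => s i + t * κ) * covt V f t).trace =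
      ∑ i, (s i + t * κ) * covt V f t i i := by simp [Matrix.trace, diagonal_mul]
  rw [htr]
  ring

end Vale.Agent.P254M.Gap
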