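import Vale.Agent.P254M.Gap.Limit

/-!
The second order conditions at an almost maximising sequence.
-/

open MeasureTheory Set Filter Topology Finset Matrix
open Vale.Agent.P245 hiding cv
open scoped ContDiff

namespace Vale.Agent.P254M.Gap.Sq

variable {n : ℕ} {r : ℝ} {S : Sq n r} {u : Ultrafilter ℕ} (L : S.Lims u) {e : ℝ} {h η : ℕ → ℝ}
  (hu : (↑u : Filter ℕ) ≤ atTop) (hh : Tendsto h (↑u : Filter ℕ) (𝓝 0)) (hpos : ∀ j, 0 < h j)

/-- The gap of an unperturbed normalised state. -/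
lemma fgap_zero (S : Sq n r) (j : ℕ) {f : (Fin n → ℝ) → ℝ} {κ : ℝ} (hf : Dir f κ) :
    fgap e (S.V j) (diagonal (S.s j)) =
      (n : ℝ) / 2 * Real.log (2 * Real.pi * Real.exp 1) - entt (S.V j) f 0
        + 2 / 5 * (∑ i, Real.log (1 + 2 * S.s j i))
        + (1 / 5 + e) * ∑ i, S.s j i * covt (S.V j) f 0 i i
        - n * (1 / 5 + 2 / 5 * Real.log 3 + e) := by
  have h0 := (fgap_pert (e := e) (S.nz j) (S.dom j) (S.s0 j) hf (t := 0) (by simp)).2
  simpa [covt_zero (S.nz j), wpert_self] using h0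

include hh hpos

/-- The weight one part of the lower bound along a linear tilt. -/
lemma lower_linear (l : Fin n) {w : ℕ → Fin n → ℝ} {W : Fin n → ℝ} (hW0 : ∀ a, 0 ≤ W a)
    (hw : ∀ a, Tendsto (fun j => w j a) (↑u : Filter ℕ) (𝓝 (W a))) :
    ∃ g : ℕ → ℝ, (∀ᶠ j in (↑u : Filter ℕ),
        g j ≤ Real.log (1 + wpert (w j) (covt (S.V j) (fun x => x l) (h j))).det +
          Real.log (1 + wpert (w j) (covt (S.V j) (fun x => x l) (-h j))).det) ∧
      Tendsto (fun j => g j / h j ^ 2) (↑u : Filter ℕ) (𝓝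
        ((∑ a, W a * (L.K a a l - 1 - 2 * (if a = l then 1 else 0)))
          - ∑ a, ∑ b, W a * W b * L.T a b l ^ 2)) := by
  have h0 : ∀ᶠ j in (↑u : Filter ℕ), h j ≠ 0 := Eventually.of_forall fun j => (hpos j).ne'
  set f : (Fin n → ℝ) → ℝ := fun x => x l with hf
  have hh1 : ∀ t j, (wpert (w j) (covt (S.V j) f t)).IsHermitian := fun t j =>
    wpert_isHermitian _ (IsHermitian.ext fun a b => by
      simp only [star_trivial, ← covm_sub_tilt, covm_symm _ b a])
  obtain ⟨g, hg, hlim⟩ := exists_lower_two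
    (Xp := fun j => wpert (w j) (covt (S.V j) f (h j)))
    (Xm := fun j => wpert (w j) (covt (S.V j) f (-h j))) hh h0
    (Eventually.of_forall (hh1 _ ·)) (Eventually.of_forall fun j => hh1 _ j)
    (B := fun a b => Real.sqrt (W a) * Real.sqrt (W b) * L.T a b l)
    (C := fun a b => Real.sqrt (W a) * Real.sqrt (W b) * (L.K a b l
      - (1 : Matrix (Fin n) (Fin n) ℝ) a b
      - 2 * ((1 : Matrix (Fin n) (Fin n) ℝ) a l * (1 : Matrix (Fin n) (Fin n) ℝ) b l)))
    fun a b => wjet2 (jet_covt L l hh h0 a b) (fun j => by rw [covt_zero (S.nz j)])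
      ((hw a).sqrt.mul (hw b).sqrt)
  refine ⟨g, hg, ?_⟩
  convert hlim using 2
  congr 1
  · refine sum_congr rfl fun a _ => ?_
    rw [Real.mul_self_sqrt (hW0 a)]
    simp [one_apply]
  · refine sum_congr rfl fun a _ => sum_congr rfl fun b _ => ?_
    rw [mul_pow, mul_pow, Real.sq_sqrt (hW0 a), Real.sq_sqrt (hW0 b)]

/-- The lower bound along the quadratic tilt. -/
lemma lower_quadratic {w : ℕ → Fin n → ℝ} {W : Fin n → ℝ} (hW0 : ∀ a, 0 ≤ W a)
    (hw : ∀ a, Tendsto (fun j => w j a) (↑u : Filter ℕ) (𝓝 (W a))) :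
    ∃ g : ℕ → ℝ, (∀ᶠ j in (↑u : Filter ℕ),
        g j ≤ Real.log (1 + wpert (w j) (covt (S.V j) fq (h j))).det) ∧
      Tendsto (fun j => g j / h j) (↑u : Filter ℕ) (𝓝
        (∑ a, W a * (-(1 / 2) * (∑ c, L.K a a c) + n / 2))) := by
  have h0 : ∀ᶠ j in (↑u : Filter ℕ), h j ≠ 0 := Eventually.of_forall fun j => (hpos j).ne'
  obtain ⟨g, hg, hlim⟩ := exists_lower_one
    (X := fun j => wpert (w j) (covt (S.V j) fq (h j))) hh h0
    (Eventually.of_forall fun j => wpert_isHermitian _ (IsHermitian.ext fun a b => by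
      simp only [star_trivial, ← covm_sub_tilt, covm_symm _ b a]))
    (B := fun a b => Real.sqrt (W a) * Real.sqrt (W b) * (-(1 / 2) * (∑ c, L.K a b c)
      + n / 2 * (1 : Matrix (Fin n) (Fin n) ℝ) a b))
    fun a b => wjet1 (jetq_covt L hh h0 a b) (fun j => by rw [covt_zero (S.nz j)])
      ((hw a).sqrt.mul (hw b).sqrt)
  refine ⟨g, hg, ?_⟩
  convert hlim using 2
  refine sum_congr rfl fun a _ => ?_
  rw [Real.mul_self_sqrt (hW0 a)]
  simp

variable (e) in
/-- The second order condition along a linear tilt. -/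
lemma cond_linear (l : Fin n)
    (hmax : ∀ j t, fgap e (fun x => S.V j x - t * x l) (diagonal (S.s j))
      ≤ fgap e (S.V j) (diagonal (S.s j)) + η j)
    (hη : Tendsto (fun j => η j / h j ^ 2) (↑u : Filter ℕ) (𝓝 0)) :
    1 / 2 * ((∑ a, (L.K a a l - 1 - 2 * (if a = l then 1 else 0)))
        - ∑ a, ∑ b, L.T a b l ^ 2)
      - (L.W l - L.E0 - 1)
      + 2 / 5 * ((∑ a, rho (L.σ a) * (L.K a a l - 1 - 2 * (if a = l then 1 else 0)))
          - ∑ a, ∑ b, rho (L.σ a) * rho (L.σ b) * L.T a b l ^ 2)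
      + (1 / 5 + e) * ∑ a, L.σ a * (L.K a a l - 1 - 2 * (if a = l then 1 else 0)) ≤ 0 := by
  have h0 : ∀ᶠ j in (↑u : Filter ℕ), h j ≠ 0 := Eventually.of_forall fun j => (hpos j).ne'
  obtain ⟨g1, hg1, hl1⟩ := lower_linear L hh hpos l (w := fun _ _ => (1:ℝ)) (W := fun _ => (1:ℝ))
    (fun _ => zero_le_one) fun _ => tendsto_const_nhds
  obtain ⟨g2, hg2, hl2⟩ := lower_linear L hh hpos l (w := fun j a => rho (S.s j a))
    (W := fun a => rho (L.σ a)) (fun a => rho_nonneg (σ_nonneg L a))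
    fun a => tendsto_rho (σ_nonneg L a) (L.hσ a)
  simp only [one_mul] at hl1
  have hsum : Tendsto (fun j => (∑ a, S.s j a * ((covt (S.V j) (fun x => x l) (h j) a a
        + covt (S.V j) (fun x => x l) (-h j) a a
        - 2 * covt (S.V j) (fun x => x l) 0 a a) / h j ^ 2)))
      (↑u : Filter ℕ) (𝓝 (∑ a, L.σ a * (L.K a a l - 1 - 2 * (if a = l then 1 else 0)))) := by
    refine tendsto_finsetSum (s := Finset.univ) fun a _ => (L.hσ a).mul ?_
    convert (jet_covt L l hh h0 a a).two using 2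
    simp [one_apply]
  have hlim := ((((hl1.const_mul (1 / 2)).sub (jet_entt L l hh h0).two).add
    (hl2.const_mul (2 / 5))).add (hsum.const_mul (1 / 5 + e)))
  refine le_of_tendsto_of_tendsto hlim (by simpa using hη.const_mul 2) ?_
  filter_upwards [hg1, hg2] with j h1 h2
  have hp : 0 < h j ^ 2 := pow_pos (hpos j) 2
  have ep := hmax j (h j)
  have em := hmax j (-h j)
  have fp := (fgap_pert (e := e) (S.nz j) (S.dom j) (S.s0 j) (dir_coord l) (t := h j) (by simp)).2
  have fm := (fgap_pert (e := e) (S.nz j) (S.dom j) (S.s0 j) (dir_coord l) (t := -h j) (by simp)).2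
  simp only [mul_zero, add_zero] at fp fm
  rw [fp, fgap_zero S j (dir_coord l)] at ep
  rw [fm, fgap_zero S j (dir_coord l)] at em
  have key : 1 / 2 * g1 j
      - (entt (S.V j) (fun x => x l) (h j) + entt (S.V j) (fun x => x l) (-h j)
        - 2 * entt (S.V j) (fun x => x l) 0)
      + 2 / 5 * g2 j
      + (1 / 5 + e) * ∑ a, S.s j a * (covt (S.V j) (fun x => x l) (h j) a a
        + covt (S.V j) (fun x => x l) (-h j) a a
        - 2 * covt (S.V j) (fun x => x l) 0 a a) ≤ 2 * η j := by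
    simp only [rho] at h2
    have esum : ∑ a, S.s j a * (covt (S.V j) (fun x => x l) (h j) a a
        + covt (S.V j) (fun x => x l) (-h j) a a - 2 * covt (S.V j) (fun x => x l) 0 a a)
      = (∑ a, S.s j a * covt (S.V j) (fun x => x l) (h j) a a)
        + (∑ a, S.s j a * covt (S.V j) (fun x => x l) (-h j) a a)
        - 2 * ∑ a, S.s j a * covt (S.V j) (fun x => x l) 0 a a := by
      rw [mul_sum, ← sum_add_distrib, ← sum_sub_distrib]
      exact sum_congr rfl fun a _ => by ring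
    rw [esum]
    linarith
  have := div_le_div_of_nonneg_right key hp.le
  refine le_trans (le_of_eq ?_) (this.trans (le_of_eq (by ring)))
  simp only [← mul_div_assoc, ← sum_div]
  ring

variable (e) in
/-- The first order condition along the quadratic tilt. -/
lemma cond_quadratic
    (hmax : ∀ j t, 0 ≤ t → fgap e (fun x => S.V j x - t * fq x)
      (diagonal fun i => S.s j i + t) ≤ fgap e (S.V j) (diagonal (S.s j)) + η j)
    (hη : Tendsto (fun j => η j / h j) (↑u : Filter ℕ) (𝓝 0)) :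
    1 / 2 * (∑ a, (-(1 / 2) * (∑ c, L.K a a c) + n / 2))
      - (-(1 / 2) * (∑ c, L.W c) + n / 2 * L.E0)
      + 2 / 5 * ((∑ a, 2 / (1 + 2 * L.σ a))
        + ∑ a, rho (L.σ a) * (-(1 / 2) * (∑ c, L.K a a c) + n / 2))
      + (1 / 5 + e) * ∑ a, (L.σ a * (-(1 / 2) * (∑ c, L.K a a c) + n / 2) + 1) ≤ 0 := by
  have h0 : ∀ᶠ j in (↑u : Filter ℕ), h j ≠ 0 := Eventually.of_forall fun j => (hpos j).ne'
  obtain ⟨g1, hg1, hl1⟩ := lower_quadratic L hh hpos (w := fun _ _ => (1:ℝ)) (W := fun _ => (1:ℝ))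
    (fun _ => zero_le_one) fun _ => tendsto_const_nhds
  obtain ⟨g2, hg2, hl2⟩ := lower_quadratic L hh hpos (w := fun j a => rho (S.s j a + h j))
    (W := fun a => rho (L.σ a)) (fun a => rho_nonneg (σ_nonneg L a))
    fun a => tendsto_rho (σ_nonneg L a) (by simpa using (L.hσ a).add hh)
  simp only [one_mul] at hl1
  have Js : ∀ a, Jet1 (↑u : Filter ℕ) h (fun j => S.s j a + h j) (fun j => S.s j a) (L.σ a) 1 :=
    fun a => ⟨L.hσ a, tendsto_const_nhds.congr' (h0.mono fun j hj => by field_simp; ring)⟩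
  have J1 : ∀ a, Jet1 (↑u : Filter ℕ) h (fun j => 1 + 2 * (S.s j a + h j))
      (fun j => 1 + 2 * S.s j a) (1 + 2 * L.σ a) 2 := fun a =>
    ((Jet1.const tendsto_const_nhds).add ((Js a).smul 2)).cast rfl (by ring)
  have hlog := tendsto_finsetSum (s := Finset.univ) fun a _ =>
    ((J1 a).log (by linarith [σ_nonneg L a]) hh h0).one
  have hsum := tendsto_finsetSum (s := Finset.univ) fun a _ =>
    ((Js a).mul (jetq_covt L hh h0 a a) hh h0).one
  have hlim := ((((hl1.const_mul (1 / 2)).sub (jetq_entt L hh h0).one).add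
    ((hlog.add hl2).const_mul (2 / 5))).add (hsum.const_mul (1 / 5 + e)))
  simp only [one_apply_eq, mul_one] at hlim
  refine le_of_tendsto_of_tendsto hlim hη ?_
  filter_upwards [hg1, hg2] with j h1 h2
  have hp : 0 < h j := hpos j
  have ep := hmax j (h j) hp.le
  have fp := (fgap_pert (e := e) (S.nz j) (S.dom j) (S.s0 j) dir_fq (t := h j)
    (by simpa using hp.le)).2
  simp only [mul_one] at fp
  rw [fp, fgap_zero S j dir_fq] at ep
  have key : 1 / 2 * g1 j - (entt (S.V j) fq (h j) - entt (S.V j) fq 0)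
      + 2 / 5 * ((∑ a, (Real.log (1 + 2 * (S.s j a + h j)) - Real.log (1 + 2 * S.s j a))) + g2 j)
      + (1 / 5 + e) * ∑ a, ((S.s j a + h j) * covt (S.V j) fq (h j) a a
        - S.s j a * covt (S.V j) fq 0 a a) ≤ η j := by
    simp only [rho] at h2
    simp only [sum_sub_distrib]
    linarith
  have := div_le_div_of_nonneg_right key hp.le
  refine le_trans (le_of_eq ?_) this
  simp only [← sum_div]
  ring

end Vale.Agent.P254M.Gap.Sq
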